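import Mathlib

namespace Vale.Agent.Helper23.P052Core


open Finset

section geom

variable {V : Type*} [NormedAddCommGroup V] [InnerProductSpace ℝ V]

/-- Weighted sum of squared distances vanishes for an affine dependence. -/
lemma neg_type_identity (S : Finset V) (f : V → ℝ)
    (h1 : ∑ x ∈ S, f x • x = 0) (h0 : ∑ x ∈ S, f x = 0) :
    ∑ x ∈ S, ∑ y ∈ S, f x * f y * ‖x - y‖ ^ 2 = 0 := by
  have key : ∀ x y : V, f x * f y * ‖x - y‖ ^ 2 =
      (f x * ‖x‖ ^ 2) * f y - 2 * inner ℝ (f x • x) (f y • y) + f x * (f y * ‖y‖ ^ 2) := by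
    intro x y
    rw [norm_sub_sq_real, real_inner_smul_left, real_inner_smul_right]
    ring
  have h2 : ∑ x ∈ S, ∑ y ∈ S, inner ℝ (f x • x) (f y • y) = 0 := by
    have : ∑ x ∈ S, ∑ y ∈ S, inner ℝ (f x • x) (f y • y)
        = inner ℝ (∑ x ∈ S, f x • x) (∑ y ∈ S, f y • y) := by
      rw [sum_inner]
      refine Finset.sum_congr rfl (fun x _ => ?_)
      rw [inner_sum]
    rw [this, h1, inner_zero_left]
  calc ∑ x ∈ S, ∑ y ∈ S, f x * f y * ‖x - y‖ ^ 2
      = ∑ x ∈ S, ∑ y ∈ S, ((f x * ‖x‖ ^ 2) * f y - 2 * inner ℝ (f x • x) (f y • y)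
          + f x * (f y * ‖y‖ ^ 2)) := by
        refine Finset.sum_congr rfl (fun x _ => Finset.sum_congr rfl (fun y _ => key x y))
    _ = (∑ x ∈ S, f x * ‖x‖ ^ 2) * (∑ y ∈ S, f y)
          - 2 * ∑ x ∈ S, ∑ y ∈ S, inner ℝ (f x • x) (f y • y)
          + (∑ x ∈ S, f x) * (∑ y ∈ S, f y * ‖y‖ ^ 2) := by
        simp only [Finset.sum_add_distrib, Finset.sum_sub_distrib]
        rw [Finset.sum_mul_sum, Finset.sum_mul_sum, Finset.mul_sum]
        congr 2
        refine Finset.sum_congr rfl (fun x _ => ?_)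
        rw [Finset.mul_sum]
    _ = 0 := by rw [h0, h2]; ring

/-- Among more than `finrank + 1` points with pairwise distances at most `D`, some point has
two distinct partners at distance strictly less than `D`. -/
lemma exists_cherry [FiniteDimensional ℝ V] (S : Finset V) (D : ℝ)
    (hcard : Module.finrank ℝ V + 1 < S.card)
    (hD : ∀ x ∈ S, ∀ y ∈ S, dist x y ≤ D) :
    ∃ a ∈ S, ∃ b ∈ S, ∃ c ∈ S, b ≠ a ∧ c ≠ a ∧ b ≠ c ∧ dist a b < D ∧ dist a c < D := by
  classical
  by_contra hne
  have huniq : ∀ a ∈ S, ∀ b ∈ S, ∀ c ∈ S, b ≠ a → c ≠ a → dist a b < D → dist a c < D →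
      b = c := by
    intro a ha b hb c hc hba hca h1 h2
    by_contra hbc
    exact hne ⟨a, ha, b, hb, c, hc, hba, hca, hbc, h1, h2⟩
  obtain ⟨f, hf1, hf0, x0, hx0, hfx0⟩ :=
    Module.exists_nontrivial_relation_sum_zero_of_finrank_succ_lt_card hcard
  have hid := neg_type_identity S f hf1 hf0
  have hDpos : 0 < D := by
    have h1 : 1 < S.card := by omega
    obtain ⟨x, hx, y, hy, hxy⟩ := Finset.one_lt_card.mp h1
    exact lt_of_lt_of_le (dist_pos.mpr hxy) (hD x hx y hy)
  -- the defect function, zero on the diagonal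
  let e : V → V → ℝ := fun x y => if x = y then 0 else D ^ 2 - ‖x - y‖ ^ 2
  have he_nn : ∀ x ∈ S, ∀ y ∈ S, 0 ≤ e x y := by
    intro x hx y hy
    by_cases hxy : x = y
    · simp [e, hxy]
    · have h1 := hD x hx y hy
      rw [dist_eq_norm] at h1
      have h0 : 0 ≤ ‖x - y‖ := norm_nonneg _
      simp only [e, hxy, if_false]
      nlinarith
  have he_symm : ∀ x y, e x y = e y x := by
    intro x y
    by_cases hxy : x = y
    · simp [e, hxy]
    · have hyx : ¬ y = x := fun h => hxy h.symm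
      simp only [e, hxy, hyx, if_false]
      rw [norm_sub_rev]
  -- each row sum of the defect is below D^2
  have hrow : ∀ x ∈ S, ∑ y ∈ S, e x y < D ^ 2 := by
    intro x hx
    by_cases hex : ∃ b ∈ S, b ≠ x ∧ dist x b < D
    · obtain ⟨b, hbS, hbx, hbD⟩ := hex
      rw [Finset.sum_eq_single_of_mem b hbS]
      · have hxb : ¬ x = b := fun h => hbx h.symm
        have h0 : 0 < ‖x - b‖ := norm_pos_iff.mpr (sub_ne_zero.mpr hxb)
        simp only [e, hxb, if_false]
        nlinarith [sq_pos_of_pos h0]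
      · intro y hyS hyb
        by_cases hxy : x = y
        · simp [e, hxy]
        · have hyx : y ≠ x := fun h => hxy h.symm
          have h1 : ¬ dist x y < D := fun h => hyb (huniq x hx y hyS b hbS hyx hbx h hbD)
          have h2 : dist x y = D := le_antisymm (hD x hx y hyS) (not_lt.mp h1)
          simp only [e, hxy, if_false]
          rw [← dist_eq_norm, h2]; ring
    · rw [Finset.sum_eq_zero]
      · positivity
      · intro y hyS
        by_cases hxy : x = y
        · simp [e, hxy]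
        · have hyx : y ≠ x := fun h => hxy h.symm
          have h1 : ¬ dist x y < D := fun h => hex ⟨y, hyS, hyx, h⟩
          have h2 : dist x y = D := le_antisymm (hD x hx y hyS) (not_lt.mp h1)
          simp only [e, hxy, if_false]
          rw [← dist_eq_norm, h2]; ring
  -- rewrite the identity through the defect
  have hpt : ∀ x y : V, f x * f y * ‖x - y‖ ^ 2
      = D ^ 2 * f x * f y - f x * f y * e x y - (if x = y then D ^ 2 * f x * f y else 0) := by
    intro x y
    by_cases hxy : x = y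
    · subst hxy; simp [e]
    · simp only [e, hxy, if_false]; ring
  have hrowid : ∀ x ∈ S, ∑ y ∈ S, f x * f y * ‖x - y‖ ^ 2
      = D ^ 2 * f x * (∑ y ∈ S, f y) - ∑ y ∈ S, f x * f y * e x y - D ^ 2 * f x ^ 2 := by
    intro x hx
    rw [Finset.sum_congr rfl (fun y _ => hpt x y), Finset.sum_sub_distrib,
      Finset.sum_sub_distrib, Finset.sum_ite_eq, if_pos hx, ← Finset.mul_sum]
    ring
  have hid2 : ∑ x ∈ S, D ^ 2 * f x ^ 2 = - ∑ x ∈ S, ∑ y ∈ S, f x * f y * e x y := by
    have h1 : ∑ x ∈ S, ∑ y ∈ S, f x * f y * ‖x - y‖ ^ 2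
        = ∑ x ∈ S, (D ^ 2 * f x * (∑ y ∈ S, f y) - ∑ y ∈ S, f x * f y * e x y
            - D ^ 2 * f x ^ 2) := Finset.sum_congr rfl hrowid
    rw [hid, hf0] at h1
    simp only [mul_zero, zero_sub, Finset.sum_sub_distrib, Finset.sum_neg_distrib] at h1
    linarith
  -- bound the cross terms
  have hcross : ∀ x ∈ S, ∀ y ∈ S,
      - (f x * f y * e x y) ≤ f x ^ 2 / 2 * e x y + f y ^ 2 / 2 * e x y := by
    intro x hx y hy
    have h1 := he_nn x hx y hy
    nlinarith [mul_nonneg h1 (sq_nonneg (f x + f y))]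
  have hsum1 : - ∑ x ∈ S, ∑ y ∈ S, f x * f y * e x y
      ≤ ∑ x ∈ S, ∑ y ∈ S, (f x ^ 2 / 2 * e x y + f y ^ 2 / 2 * e x y) := by
    rw [← Finset.sum_neg_distrib]
    refine Finset.sum_le_sum (fun x hx => ?_)
    rw [← Finset.sum_neg_distrib]
    exact Finset.sum_le_sum (fun y hy => hcross x hx y hy)
  have hsum2 : ∑ x ∈ S, ∑ y ∈ S, (f x ^ 2 / 2 * e x y + f y ^ 2 / 2 * e x y)
      = ∑ x ∈ S, f x ^ 2 * ∑ y ∈ S, e x y := by
    have hA : ∑ x ∈ S, ∑ y ∈ S, f y ^ 2 / 2 * e x y = ∑ x ∈ S, ∑ y ∈ S, f x ^ 2 / 2 * e x y := by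
      rw [Finset.sum_comm]
      refine Finset.sum_congr rfl (fun x _ => Finset.sum_congr rfl (fun y _ => ?_))
      rw [he_symm]
    simp only [Finset.sum_add_distrib]
    rw [hA, ← Finset.sum_add_distrib]
    refine Finset.sum_congr rfl (fun x _ => ?_)
    rw [← Finset.sum_add_distrib, Finset.mul_sum]
    refine Finset.sum_congr rfl (fun y _ => ?_)
    ring
  have hfinal : ∑ x ∈ S, f x ^ 2 * (D ^ 2 - ∑ y ∈ S, e x y) ≤ 0 := by
    have h1 : ∑ x ∈ S, f x ^ 2 * (D ^ 2 - ∑ y ∈ S, e x y)
        = ∑ x ∈ S, D ^ 2 * f x ^ 2 - ∑ x ∈ S, f x ^ 2 * ∑ y ∈ S, e x y := by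
      rw [← Finset.sum_sub_distrib]
      refine Finset.sum_congr rfl (fun x _ => ?_)
      ring
    rw [h1, hid2]
    linarith [hsum1, hsum2.le, hsum2.ge]
  have hpos : 0 < ∑ x ∈ S, f x ^ 2 * (D ^ 2 - ∑ y ∈ S, e x y) := by
    refine Finset.sum_pos' (fun x hx => ?_) ⟨x0, hx0, ?_⟩
    · exact mul_nonneg (sq_nonneg _) (sub_nonneg.mpr (hrow x hx).le)
    · exact mul_pos (by positivity) (sub_pos.mpr (hrow x0 hx0))
  exact absurd hfinal (not_le.mpr hpos)

end geom


section comb

variable {α : Type*} [DecidableEq α]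

/-- `Col Y R m`: the points of `Y` can be given colours below `m` such that any two distinct
points of the same colour are `R`-related. -/
def Col (Y : Finset α) (R : α → α → Prop) (m : ℕ) : Prop :=
  ∃ c : α → ℕ, (∀ x ∈ Y, c x < m) ∧ ∀ x ∈ Y, ∀ y ∈ Y, c x = c y → x ≠ y → R x y

lemma col_card (Y : Finset α) (R : α → α → Prop) : Col Y R Y.card := by
  classical
  refine ⟨fun x => if h : x ∈ Y then (Y.equivFin ⟨x, h⟩ : ℕ) else 0, ?_, ?_⟩
  · intro x hx
    simp only [hx, dif_pos]
    exact (Y.equivFin ⟨x, hx⟩).isLt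
  · intro x hx y hy hxy hne
    simp only [hx, hy, dif_pos] at hxy
    have h1 : Y.equivFin ⟨x, hx⟩ = Y.equivFin ⟨y, hy⟩ := Fin.ext hxy
    have h2 := Y.equivFin.injective h1
    exact absurd (Subtype.mk.inj h2) hne

omit [DecidableEq α] in
lemma col_mono {Y : Finset α} {R : α → α → Prop} {m m' : ℕ} (h : m ≤ m') (hc : Col Y R m) :
    Col Y R m' := by
  obtain ⟨c, h1, h2⟩ := hc
  exact ⟨c, fun x hx => lt_of_lt_of_le (h1 x hx) h, h2⟩

lemma col_step {Y K : Finset α} {R : α → α → Prop} {m : ℕ}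
    (hK : ∀ x ∈ K, ∀ y ∈ K, x ≠ y → R x y) (hc : Col (Y \ K) R m) : Col Y R (m + 1) := by
  obtain ⟨c, h1, h2⟩ := hc
  refine ⟨fun x => if x ∈ K then m else c x, ?_, ?_⟩
  · intro x hx
    by_cases hxK : x ∈ K
    · simp [hxK]
    · simp only [hxK, if_false]
      exact lt_trans (h1 x (Finset.mem_sdiff.mpr ⟨hx, hxK⟩)) (Nat.lt_succ_self m)
  · intro x hx y hy hxy hne
    by_cases hxK : x ∈ K <;> by_cases hyK : y ∈ K
    · exact hK x hxK y hyK hne
    · simp only [hxK, hyK, if_true, if_false] at hxy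
      have := h1 y (Finset.mem_sdiff.mpr ⟨hy, hyK⟩)
      omega
    · simp only [hxK, hyK, if_true, if_false] at hxy
      have := h1 x (Finset.mem_sdiff.mpr ⟨hx, hxK⟩)
      omega
    · simp only [hxK, hyK, if_false] at hxy
      exact h2 x (Finset.mem_sdiff.mpr ⟨hx, hxK⟩) y (Finset.mem_sdiff.mpr ⟨hy, hyK⟩) hxy hne

/-- Colouring after removing one clique `K ⊆ Y`. -/
lemma col_of_clique {Y K : Finset α} {R : α → α → Prop} {m : ℕ} (hKY : K ⊆ Y)
    (hK : ∀ x ∈ K, ∀ y ∈ K, x ≠ y → R x y) (hm : Y.card + 1 ≤ m + K.card) : Col Y R m := by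
  have h1 : Col Y R ((Y \ K).card + 1) := col_step hK (col_card _ R)
  have h2 : (Y \ K).card = Y.card - K.card := Finset.card_sdiff_of_subset hKY
  have h3 : K.card ≤ Y.card := Finset.card_le_card hKY
  exact col_mono (by omega) h1

/-- Colouring obtained from a list of pairwise disjoint cliques inside `Y`. -/
lemma col_of_lists {R : α → α → Prop} (hsymm : ∀ x y, R x y → R y x) :
    ∀ (L : List (List α)) (Y : Finset α) (m : ℕ), L.flatten.Nodup → (∀ x ∈ L.flatten, x ∈ Y) →
      (∀ l ∈ L, l.Pairwise R) → Y.card + L.length ≤ m + L.flatten.length → Col Y R m := by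
  intro L
  induction L with
  | nil =>
    intro Y m _ _ _ hm
    simp at hm
    exact col_mono hm (col_card Y R)
  | cons l L ih =>
    intro Y m hnd hY hR hm
    rw [List.flatten_cons, List.nodup_append] at hnd
    rw [List.flatten_cons] at hY hm
    rw [List.length_cons, List.length_append] at hm
    obtain ⟨hl, hL, hdisj⟩ := hnd
    have hKY : l.toFinset ⊆ Y := fun x hx =>
      hY x (List.mem_append.mpr (Or.inl (List.mem_toFinset.mp hx)))
    have hKcard : l.toFinset.card = l.length := List.toFinset_card_of_nodup hl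
    have hsd : (Y \ l.toFinset).card = Y.card - l.length := by
      rw [Finset.card_sdiff_of_subset hKY, hKcard]
    have hle : l.length ≤ Y.card := hKcard ▸ Finset.card_le_card hKY
    have hY' : ∀ x ∈ L.flatten, x ∈ Y \ l.toFinset := by
      intro x hx
      refine Finset.mem_sdiff.mpr ⟨hY x (List.mem_append.mpr (Or.inr hx)), ?_⟩
      intro hxl
      exact hdisj x (List.mem_toFinset.mp hxl) x hx rfl
    have hflat : L.flatten.length ≤ (Y \ l.toFinset).card := by
      have h1 : L.flatten.toFinset ⊆ Y \ l.toFinset := fun x hx => hY' x (List.mem_toFinset.mp hx)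
      have h2 := Finset.card_le_card h1
      rwa [List.toFinset_card_of_nodup hL] at h2
    have hm1 : 1 ≤ m := by omega
    have ih' := ih (Y \ l.toFinset) (m - 1) hL hY'
      (fun l' hl' => hR l' (List.mem_cons_of_mem _ hl')) (by omega)
    have hclique : ∀ x ∈ l.toFinset, ∀ y ∈ l.toFinset, x ≠ y → R x y := by
      intro x hx y hy hxy
      have : Std.Symm R := ⟨hsymm⟩
      exact (hR l List.mem_cons_self).forall (List.mem_toFinset.mp hx)
        (List.mem_toFinset.mp hy) hxy
    have hstep := col_step hclique ih'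
    rwa [Nat.sub_add_cancel hm1] at hstep

lemma pair_cases (R : α → α → Prop) (a b : α) (U : Finset α) :
    (∃ u ∈ U, R a u ∧ R b u) ∨ (∃ u ∈ U, ∃ u' ∈ U, u ≠ u' ∧ R a u ∧ R b u') ∨
    (∃ x, (x = a ∨ x = b) ∧ ∀ u ∈ U, ¬ R x u) := by
  by_cases h : ∃ u ∈ U, R a u
  · by_cases h' : ∃ u' ∈ U, R b u'
    · obtain ⟨u, hu, hau⟩ := h
      obtain ⟨u', hu', hbu'⟩ := h'
      by_cases e : u = u'
      · left; exact ⟨u, hu, hau, e ▸ hbu'⟩
      · right; left; exact ⟨u, hu, u', hu', e, hau, hbu'⟩
    · right; right; exact ⟨b, Or.inr rfl, fun u hu hR => h' ⟨u, hu, hR⟩⟩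
  · right; right; exact ⟨a, Or.inl rfl, fun u hu hR => h ⟨u, hu, hR⟩⟩

/-- The combinatorial core: if every `d + 2` points of `Y` contain a point with two distinct
`R`-partners, and `Y` has at most `d + 4` points, then `d + 1` colours suffice. -/
lemma col_main {Y : Finset α} {R : α → α → Prop} {d : ℕ} (hsymm : ∀ x y, R x y → R y x)
    (hP : ∀ S ⊆ Y, d + 2 ≤ S.card →
      ∃ a ∈ S, ∃ b ∈ S, ∃ c ∈ S, b ≠ a ∧ c ≠ a ∧ b ≠ c ∧ R a b ∧ R a c)
    (hcard : Y.card ≤ d + 4) : Col Y R (d + 1) := by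
  have hedge : ∀ S ⊆ Y, d + 2 ≤ S.card → ∃ a ∈ S, ∃ b ∈ S, a ≠ b ∧ R a b := by
    intro S hS hc
    obtain ⟨a, ha, b, hb, c, -, hba, -, -, h1, -⟩ := hP S hS hc
    exact ⟨a, ha, b, hb, hba.symm, h1⟩
  by_cases h1 : Y.card ≤ d + 1
  · exact col_mono h1 (col_card Y R)
  obtain ⟨a, ha, b, hb, hab, hRab⟩ := hedge Y subset_rfl (by omega)
  by_cases h2 : Y.card ≤ d + 2
  · exact col_of_lists hsymm [[a, b]] Y (d + 1) (by simp [hab]) (by simp [ha, hb])
      (by simp [hRab]) (by simp; omega)
  have hU1 : (Y \ {a, b}).card = Y.card - 2 := by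
    rw [Finset.card_sdiff_of_subset (by simp [Finset.insert_subset_iff, ha, hb]),
      Finset.card_pair hab]
  have hU1mem : ∀ u, u ∈ Y \ {a, b} ↔ u ∈ Y ∧ u ≠ a ∧ u ≠ b := by
    intro u
    simp only [Finset.mem_sdiff, Finset.mem_insert, Finset.mem_singleton, not_or]
  by_cases hE1 : ∃ c ∈ Y \ {a, b}, ∃ e ∈ Y \ {a, b}, c ≠ e ∧ R c e
  · obtain ⟨c, hc, e, he, hce, hRce⟩ := hE1
    obtain ⟨hcY, hca, hcb⟩ := (hU1mem c).mp hc
    obtain ⟨heY, hea, heb⟩ := (hU1mem e).mp he
    by_cases h3 : Y.card ≤ d + 3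
    · exact col_of_lists hsymm [[a, b], [c, e]] Y (d + 1)
        (by simp [hab, hce, Ne.symm hca, Ne.symm hcb, Ne.symm hea, Ne.symm heb])
        (by simp [ha, hb, hcY, heY]) (by simp [hRab, hRce]) (by simp; omega)
    have hUmem : ∀ u, u ∈ (Y \ {a, b}) \ {c, e} ↔ u ∈ Y ∧ u ≠ a ∧ u ≠ b ∧ u ≠ c ∧ u ≠ e := by
      intro u
      simp only [Finset.mem_sdiff, Finset.mem_insert, Finset.mem_singleton, not_or]
      tauto
    have hUcard : ((Y \ {a, b}) \ {c, e}).card = Y.card - 4 := by
      rw [Finset.card_sdiff_of_subset (by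
        intro u hu
        simp only [Finset.mem_insert, Finset.mem_singleton] at hu
        rcases hu with rfl | rfl
        · exact hc
        · exact he), Finset.card_pair hce, hU1]
      omega
    by_cases hE2 : ∃ g ∈ (Y \ {a, b}) \ {c, e}, ∃ h ∈ (Y \ {a, b}) \ {c, e}, g ≠ h ∧ R g h
    · obtain ⟨g, hg, h, hh, hgh, hRgh⟩ := hE2
      obtain ⟨hgY, hga, hgb, hgc, hge⟩ := (hUmem g).mp hg
      obtain ⟨hhY, hha, hhb, hhc, hhe⟩ := (hUmem h).mp hh
      exact col_of_lists hsymm [[a, b], [c, e], [g, h]] Y (d + 1)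
        (by simp [hab, hce, hgh, Ne.symm hca, Ne.symm hcb, Ne.symm hea, Ne.symm heb,
          Ne.symm hga, Ne.symm hgb, Ne.symm hgc, Ne.symm hge, Ne.symm hha, Ne.symm hhb,
          Ne.symm hhc, Ne.symm hhe])
        (by simp [ha, hb, hcY, heY, hgY, hhY]) (by simp [hRab, hRce, hRgh]) (by simp; omega)
    · have hind : ∀ u ∈ (Y \ {a, b}) \ {c, e}, ∀ u' ∈ (Y \ {a, b}) \ {c, e}, u ≠ u' →
          ¬ R u u' := by
        intro u hu u' hu' hne hR
        exact hE2 ⟨u, hu, u', hu', hne, hR⟩
      rcases pair_cases R a b ((Y \ {a, b}) \ {c, e}) with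
        ⟨u, hu, hau, hbu⟩ | ⟨u, hu, u', hu', huu', hau, hbu'⟩ | ⟨x, hx, hxfree⟩
      · obtain ⟨huY, hua, hub, huc, hue⟩ := (hUmem u).mp hu
        exact col_of_lists hsymm [[a, b, u], [c, e]] Y (d + 1)
          (by simp [hab, hce, Ne.symm hca, Ne.symm hcb, Ne.symm hea, Ne.symm heb,
            Ne.symm hua, Ne.symm hub, huc, hue])
          (by simp [ha, hb, hcY, heY, huY]) (by simp [hRab, hRce, hau, hbu]) (by simp; omega)
      · obtain ⟨huY, hua, hub, huc, hue⟩ := (hUmem u).mp hu
        obtain ⟨huY', hua', hub', huc', hue'⟩ := (hUmem u').mp hu'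
        exact col_of_lists hsymm [[a, u], [b, u'], [c, e]] Y (d + 1)
          (by simp [hab, hce, huu', Ne.symm hca, Ne.symm hcb, Ne.symm hea, Ne.symm heb,
            Ne.symm hua, hub, huc, hue, Ne.symm hua', Ne.symm hub', huc', hue'])
          (by simp [ha, hb, hcY, heY, huY, huY']) (by simp [hRce, hau, hbu']) (by simp; omega)
      · rcases pair_cases R c e ((Y \ {a, b}) \ {c, e}) with
          ⟨u, hu, hcu, heu⟩ | ⟨u, hu, u', hu', huu', hcu, heu'⟩ | ⟨y, hy, hyfree⟩
        · obtain ⟨huY, hua, hub, huc, hue⟩ := (hUmem u).mp hu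
          exact col_of_lists hsymm [[c, e, u], [a, b]] Y (d + 1)
            (by simp [hab, hce, hca, hcb, hea, heb,
              hua, hub, Ne.symm huc, Ne.symm hue])
            (by simp [ha, hb, hcY, heY, huY]) (by simp [hRab, hRce, hcu, heu]) (by simp; omega)
        · obtain ⟨huY, hua, hub, huc, hue⟩ := (hUmem u).mp hu
          obtain ⟨huY', hua', hub', huc', hue'⟩ := (hUmem u').mp hu'
          exact col_of_lists hsymm [[c, u], [e, u'], [a, b]] Y (d + 1)
            (by simp [hab, hce, huu', hca, hcb, hea, heb,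
              hua, hub, Ne.symm huc, hue, hua', hub', Ne.symm huc', Ne.symm hue'])
            (by simp [ha, hb, hcY, heY, huY, huY']) (by simp [hRab, hcu, heu']) (by simp; omega)
        · exfalso
          have hxY : x ∈ Y := by rcases hx with rfl | rfl <;> assumption
          have hyY : y ∈ Y := by rcases hy with rfl | rfl <;> assumption
          have hxy : x ≠ y := by
            rcases hx with rfl | rfl <;> rcases hy with rfl | rfl
            · exact Ne.symm hca
            · exact Ne.symm hea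
            · exact Ne.symm hcb
            · exact Ne.symm heb
          have hxU : x ∉ (Y \ {a, b}) \ {c, e} := by
            intro hmem
            obtain ⟨-, h1, h2, -, -⟩ := (hUmem x).mp hmem
            rcases hx with rfl | rfl
            · exact h1 rfl
            · exact h2 rfl
          have hyU : y ∉ (Y \ {a, b}) \ {c, e} := by
            intro hmem
            obtain ⟨-, -, -, h1, h2⟩ := (hUmem y).mp hmem
            rcases hy with rfl | rfl
            · exact h1 rfl
            · exact h2 rfl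
          have hS : insert x (insert y ((Y \ {a, b}) \ {c, e})) ⊆ Y := by
            intro s hs
            simp only [Finset.mem_insert] at hs
            rcases hs with rfl | rfl | hsU
            · exact hxY
            · exact hyY
            · exact ((hUmem s).mp hsU).1
          have hScard : (insert x (insert y ((Y \ {a, b}) \ {c, e}))).card
              = ((Y \ {a, b}) \ {c, e}).card + 2 := by
            rw [Finset.card_insert_of_notMem (by simp [hxy, hxU]),
              Finset.card_insert_of_notMem hyU]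
          obtain ⟨p, hp, q, hq, r, hr, hqp, hrp, hqr, hRpq, hRpr⟩ := hP _ hS (by omega)
          have key : ∀ s ∈ insert x (insert y ((Y \ {a, b}) \ {c, e})),
              ∀ t ∈ insert x (insert y ((Y \ {a, b}) \ {c, e})), s ≠ t → R s t →
              (s = x ∧ t = y) ∨ (s = y ∧ t = x) := by
            intro s hs t ht hst hR
            simp only [Finset.mem_insert] at hs ht
            rcases hs with hsx | hsy | hsU <;> rcases ht with htx | hty | htU
            · exact absurd (hsx.trans htx.symm) hst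
            · left; exact ⟨hsx, hty⟩
            · rw [hsx] at hR; exact absurd hR (hxfree t htU)
            · right; exact ⟨hsy, htx⟩
            · exact absurd (hsy.trans hty.symm) hst
            · rw [hsy] at hR; exact absurd hR (hyfree t htU)
            · rw [htx] at hR; exact absurd (hsymm _ _ hR) (hxfree s hsU)
            · rw [hty] at hR; exact absurd (hsymm _ _ hR) (hyfree s hsU)
            · exact absurd hR (hind s hsU t htU hst)
          rcases key p hp q hq hqp.symm hRpq with ⟨h1, h2⟩ | ⟨h1, h2⟩ <;>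
            rcases key p hp r hr hrp.symm hRpr with ⟨h3, h4⟩ | ⟨h3, h4⟩
          · exact hqr (h2.trans h4.symm)
          · exact hxy (h1.symm.trans h3)
          · exact hxy (h3.symm.trans h1)
          · exact hqr (h2.trans h4.symm)
  · have hind : ∀ u ∈ Y \ {a, b}, ∀ u' ∈ Y \ {a, b}, u ≠ u' → ¬ R u u' := by
      intro u hu u' hu' hne hR
      exact hE1 ⟨u, hu, u', hu', hne, hR⟩
    by_cases h3 : Y.card ≤ d + 3
    · rcases pair_cases R a b (Y \ {a, b}) with
        ⟨u, hu, hau, hbu⟩ | ⟨u, hu, u', hu', huu', hau, hbu'⟩ | ⟨x, hx, hxfree⟩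
      · obtain ⟨huY, hua, hub⟩ := (hU1mem u).mp hu
        exact col_of_lists hsymm [[a, b, u]] Y (d + 1)
          (by simp [hab, Ne.symm hua, Ne.symm hub])
          (by simp [ha, hb, huY]) (by simp [hRab, hau, hbu]) (by simp; omega)
      · obtain ⟨huY, hua, hub⟩ := (hU1mem u).mp hu
        obtain ⟨huY', hua', hub'⟩ := (hU1mem u').mp hu'
        exact col_of_lists hsymm [[a, u], [b, u']] Y (d + 1)
          (by simp [hab, huu', Ne.symm hua, hub, Ne.symm hua', Ne.symm hub'])
          (by simp [ha, hb, huY, huY']) (by simp [hau, hbu']) (by simp; omega)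
      · exfalso
        have hxY : x ∈ Y := by rcases hx with rfl | rfl <;> assumption
        have hxU : x ∉ Y \ {a, b} := by
          intro hmem
          obtain ⟨-, h1, h2⟩ := (hU1mem x).mp hmem
          rcases hx with rfl | rfl
          · exact h1 rfl
          · exact h2 rfl
        have hS : insert x (Y \ {a, b}) ⊆ Y := by
          intro s hs
          simp only [Finset.mem_insert] at hs
          rcases hs with rfl | hsU
          · exact hxY
          · exact ((hU1mem s).mp hsU).1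
        have hScard : (insert x (Y \ {a, b})).card = (Y \ {a, b}).card + 1 :=
          Finset.card_insert_of_notMem hxU
        obtain ⟨s, hs, t, ht, hst, hR⟩ := hedge _ hS (by omega)
        simp only [Finset.mem_insert] at hs ht
        rcases hs with hsx | hsU <;> rcases ht with htx | htU
        · exact hst (hsx.trans htx.symm)
        · rw [hsx] at hR; exact hxfree t htU hR
        · rw [htx] at hR; exact hxfree s hsU (hsymm _ _ hR)
        · exact hind s hsU t htU hst hR
    · obtain ⟨s, hs, t, ht, hst, hR⟩ := hedge (Y \ {a, b}) Finset.sdiff_subset (by omega)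
      exact (hind s hs t ht hst hR).elim

end comb

section final

/-- Every set of at most `d + 4` points of Euclidean `d`-space with positive diameter splits into
`d + 1` classes, each of diameter strictly smaller than that of the whole set. -/
theorem borsuk_small {d : ℕ} (Y : Finset (EuclideanSpace ℝ (Fin d))) (hY : Y.card ≤ d + 4)
    (hpos : 0 < Metric.diam (Y : Set (EuclideanSpace ℝ (Fin d)))) :
    ∃ c : EuclideanSpace ℝ (Fin d) → Fin (d + 1), ∀ i : Fin (d + 1),
      Metric.diam {x | x ∈ Y ∧ c x = i} < Metric.diam (Y : Set (EuclideanSpace ℝ (Fin d))) := by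
  classical
  set D := Metric.diam (Y : Set (EuclideanSpace ℝ (Fin d))) with hDdef
  have hD : ∀ x ∈ Y, ∀ y ∈ Y, dist x y ≤ D := fun x hx y hy =>
    Metric.dist_le_diam_of_mem Y.finite_toSet.isBounded hx hy
  have hP : ∀ S ⊆ Y, d + 2 ≤ S.card →
      ∃ a ∈ S, ∃ b ∈ S, ∃ c ∈ S, b ≠ a ∧ c ≠ a ∧ b ≠ c ∧ dist a b < D ∧ dist a c < D := by
    intro S hS hcard
    refine exists_cherry S D ?_ (fun x hx y hy => hD x (hS hx) y (hS hy))
    rw [finrank_euclideanSpace_fin]
    omega
  obtain ⟨c0, hc0, hc0'⟩ := col_main (R := fun x y => dist x y < D)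
    (fun x y h => by rw [dist_comm]; exact h) hP hY
  refine ⟨fun x => if h : c0 x < d + 1 then ⟨c0 x, h⟩ else 0, fun i => ?_⟩
  -- all pairwise distances within the class are below D
  have hpair : ∀ x ∈ {x | x ∈ Y ∧ (if h : c0 x < d + 1 then (⟨c0 x, h⟩ : Fin (d + 1)) else 0) = i},
      ∀ y ∈ {x | x ∈ Y ∧ (if h : c0 x < d + 1 then (⟨c0 x, h⟩ : Fin (d + 1)) else 0) = i},
      dist x y < D := by
    rintro x ⟨hxY, hxi⟩ y ⟨hyY, hyi⟩
    by_cases hxy : x = y
    · rw [hxy, dist_self]; exact hpos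
    · have h1 := hc0 x hxY
      have h2 := hc0 y hyY
      rw [dif_pos h1] at hxi
      rw [dif_pos h2] at hyi
      have h3 : c0 x = c0 y := by
        have := hxi.trans hyi.symm
        exact Fin.mk.inj this
      exact hc0' x hxY y hyY h3 hxy
  -- a finite maximum of the distances
  set F := Y.filter (fun x => (if h : c0 x < d + 1 then (⟨c0 x, h⟩ : Fin (d + 1)) else 0) = i)
    with hF
  have hFmem : ∀ x, x ∈ F ↔
      x ∈ {x | x ∈ Y ∧ (if h : c0 x < d + 1 then (⟨c0 x, h⟩ : Fin (d + 1)) else 0) = i} := by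
    intro x
    simp [hF]
  set P : Finset ℝ := insert 0 ((F ×ˢ F).image (fun p => dist p.1 p.2)) with hPdef
  have hPne : P.Nonempty := Finset.insert_nonempty _ _
  have hmax : P.max' hPne < D := by
    rw [Finset.max'_lt_iff]
    intro z hz
    rw [hPdef, Finset.mem_insert, Finset.mem_image] at hz
    rcases hz with rfl | ⟨p, hp, rfl⟩
    · exact hpos
    · rw [Finset.mem_product] at hp
      exact hpair p.1 ((hFmem p.1).mp hp.1) p.2 ((hFmem p.2).mp hp.2)
  refine lt_of_le_of_lt (Metric.diam_le_of_forall_dist_le ?_ ?_) hmax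
  · exact Finset.le_max' P 0 (Finset.mem_insert_self _ _)
  · intro x hx y hy
    refine Finset.le_max' P _ ?_
    rw [hPdef, Finset.mem_insert, Finset.mem_image]
    right
    exact ⟨(x, y), Finset.mem_product.mpr ⟨(hFmem x).mpr hx, (hFmem y).mpr hy⟩, rfl⟩

end final

end Vale.Agent.Helper23.P052Core
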