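import Mathlib

/-
Helper file for P110 (ultraflat Littlewood polynomials).
Main output: theorem `core`, a product inequality for the extreme values of |P|^2 on the unit circle,
proved by a discrete Parseval identity at roots of unity and a parity argument for the
autocorrelation coefficients.
-/

open Finset

namespace Vale.Agent.Helper23.P110Core

lemma geom_orth (L : ℕ) (ζ : ℂ) (hζ : IsPrimitiveRoot ζ L) (k l : ℕ) (hk : k < L) (hl : l < L) :
    ∑ j ∈ range L, (ζ ^ k * (ζ⁻¹) ^ l) ^ j = if k = l then (L : ℂ) else 0 := by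
  have hL : 0 < L := by omega
  have hζ0 : ζ ≠ 0 := hζ.ne_zero (by omega)
  split_ifs with h
  · subst h
    have : ζ ^ k * (ζ⁻¹) ^ k = 1 := by
      rw [← mul_pow, mul_inv_cancel₀ hζ0, one_pow]
    rw [this]
    simp
  · set x := ζ ^ k * (ζ⁻¹) ^ l with hx
    have hx1 : x ≠ 1 := by
      intro h1
      apply h
      apply hζ.pow_inj hk hl
      have : ζ ^ k = ζ ^ k * (ζ⁻¹) ^ l * ζ ^ l := by
        rw [mul_assoc, ← mul_pow, inv_mul_cancel₀ hζ0, one_pow, mul_one]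
      rw [this, ← hx, h1, one_mul]
    have hxL : x ^ L = 1 := by
      rw [hx, mul_pow, ← pow_mul, ← pow_mul, mul_comm k L, mul_comm l L, pow_mul, pow_mul, inv_pow, hζ.pow_eq_one]
      simp
    have := mul_geom_sum x L
    rw [hxL, sub_self] at this
    rcases mul_eq_zero.mp this with h0 | h0
    · exact absurd (sub_eq_zero.mp h0) hx1
    · exact h0

lemma parseval (L n : ℕ) (hn : n ≤ L) (ζ : ℂ) (hζ : IsPrimitiveRoot ζ L) (hL : 0 < L) (f : ℕ → ℂ) :
    ∑ j ∈ range L, ‖∑ k ∈ range n, f k * (ζ ^ j) ^ k‖ ^ 2 = L * ∑ k ∈ range n, ‖f k‖ ^ 2 := by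
  have hζ0 : ζ ≠ 0 := hζ.ne_zero (by omega)
  have hnorm : ‖ζ‖ = 1 := hζ.norm'_eq_one (by omega)
  have hconj : (starRingEnd ℂ) ζ = ζ⁻¹ := (Complex.inv_eq_conj hnorm).symm
  apply Complex.ofReal_injective
  push_cast
  have key : ∀ j, ((‖∑ k ∈ range n, f k * (ζ ^ j) ^ k‖ : ℂ)) ^ 2
      = ∑ k ∈ range n, ∑ l ∈ range n, f k * (starRingEnd ℂ) (f l) * (ζ ^ k * (ζ⁻¹) ^ l) ^ j := by
    intro j
    rw [← Complex.mul_conj', map_sum, Finset.sum_mul_sum]
    refine Finset.sum_congr rfl (fun k _ => Finset.sum_congr rfl (fun l _ => ?_))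
    rw [map_mul, map_pow, map_pow, hconj]
    ring
  simp_rw [key]
  rw [Finset.sum_comm]
  have : ∀ k ∈ range n, ∑ j ∈ range L, ∑ l ∈ range n, f k * (starRingEnd ℂ) (f l) * (ζ ^ k * (ζ⁻¹) ^ l) ^ j
      = (L : ℂ) * (‖f k‖ : ℂ) ^ 2 := by
    intro k hk
    rw [Finset.sum_comm]
    have hk' : k < L := lt_of_lt_of_le (mem_range.mp hk) hn
    have : ∀ l ∈ range n, ∑ j ∈ range L, f k * (starRingEnd ℂ) (f l) * (ζ ^ k * (ζ⁻¹) ^ l) ^ j
        = if k = l then f k * (starRingEnd ℂ) (f l) * (L : ℂ) else 0 := by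
      intro l hl
      have hl' : l < L := lt_of_lt_of_le (mem_range.mp hl) hn
      rw [← Finset.mul_sum, geom_orth L ζ hζ k l hk' hl']
      split_ifs <;> simp
    rw [Finset.sum_congr rfl this, Finset.sum_ite_eq (range n) k, if_pos hk, Complex.mul_conj']
    ring
  rw [Finset.sum_congr rfl this, ← Finset.mul_sum]

noncomputable def pPoly (N : ℕ) (e : ℕ → ℤ) : Polynomial ℤ :=
  ∑ k ∈ range N, Polynomial.C (e k) * Polynomial.X ^ k

noncomputable def rPoly (N : ℕ) (e : ℕ → ℤ) : Polynomial ℤ :=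
  ∑ k ∈ range N, Polynomial.C (e (N - 1 - k)) * Polynomial.X ^ k

lemma pPoly_coeff (N : ℕ) (e : ℕ → ℤ) (i : ℕ) :
    (pPoly N e).coeff i = if i < N then e i else 0 := by
  unfold pPoly
  rw [Polynomial.finsetSum_coeff]
  simp_rw [Polynomial.coeff_C_mul_X_pow]
  rw [Finset.sum_ite_eq (range N) i]
  simp

lemma rPoly_coeff (N : ℕ) (e : ℕ → ℤ) (i : ℕ) :
    (rPoly N e).coeff i = if i < N then e (N - 1 - i) else 0 := by
  unfold rPoly
  rw [Polynomial.finsetSum_coeff]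
  simp_rw [Polynomial.coeff_C_mul_X_pow]
  rw [Finset.sum_ite_eq (range N) i]
  simp

lemma pPoly_natDegree (N : ℕ) (e : ℕ → ℤ) : (pPoly N e).natDegree ≤ N - 1 := by
  unfold pPoly
  apply Polynomial.natDegree_sum_le_of_forall_le
  intro k hk
  have := mem_range.mp hk
  exact (Polynomial.natDegree_C_mul_X_pow_le _ _).trans (by omega)

lemma rPoly_natDegree (N : ℕ) (e : ℕ → ℤ) : (rPoly N e).natDegree ≤ N - 1 := by
  unfold rPoly
  apply Polynomial.natDegree_sum_le_of_forall_le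
  intro k hk
  have := mem_range.mp hk
  exact (Polynomial.natDegree_C_mul_X_pow_le _ _).trans (by omega)

lemma mid_coeff (N : ℕ) (hN : 1 ≤ N) (e : ℕ → ℤ) (he : ∀ k, e k = 1 ∨ e k = -1) :
    (pPoly N e * rPoly N e).coeff (N - 1) = N := by
  rw [Polynomial.coeff_mul, Finset.Nat.sum_antidiagonal_eq_sum_range_succ
    (fun i j => (pPoly N e).coeff i * (rPoly N e).coeff j)]
  have h1 : N - 1 + 1 = N := by omega
  rw [Nat.succ_eq_add_one, h1]
  have : ∀ k ∈ range N, (pPoly N e).coeff k * (rPoly N e).coeff (N - 1 - k) = 1 := by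
    intro k hk
    have hk' := mem_range.mp hk
    rw [pPoly_coeff, rPoly_coeff, if_pos hk', if_pos (by omega)]
    have : N - 1 - (N - 1 - k) = k := by omega
    rw [this]
    rcases he k with h | h <;> rw [h] <;> norm_num
  rw [Finset.sum_congr rfl this]
  simp

lemma even_coeff (N : ℕ) (e : ℕ → ℤ) (he : ∀ k, e k = 1 ∨ e k = -1) (t : ℕ) (ht : t < N) :
    (((pPoly N e * rPoly N e).coeff (2 * t) : ℤ) : ZMod 2) = 1 := by
  have hmap : ∀ x : ℤ, (x = 1 ∨ x = -1) → (Int.castRingHom (ZMod 2)) x = 1 := by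
    intro x hx
    rcases hx with h | h <;> rw [h] <;> decide
  have hp : (pPoly N e).map (Int.castRingHom (ZMod 2)) = ∑ k ∈ range N, (Polynomial.X : Polynomial (ZMod 2)) ^ k := by
    unfold pPoly
    rw [Polynomial.map_sum]
    refine Finset.sum_congr rfl (fun k _ => ?_)
    rw [Polynomial.map_mul, Polynomial.map_C, Polynomial.map_pow, Polynomial.map_X, hmap _ (he k)]
    simp
  have hr : (rPoly N e).map (Int.castRingHom (ZMod 2)) = ∑ k ∈ range N, (Polynomial.X : Polynomial (ZMod 2)) ^ k := by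
    unfold rPoly
    rw [Polynomial.map_sum]
    refine Finset.sum_congr rfl (fun k _ => ?_)
    rw [Polynomial.map_mul, Polynomial.map_C, Polynomial.map_pow, Polynomial.map_X, hmap _ (he _)]
    simp
  have hsq : (pPoly N e * rPoly N e).map (Int.castRingHom (ZMod 2))
      = ∑ k ∈ range N, ((Polynomial.X : Polynomial (ZMod 2)) ^ k) ^ 2 := by
    rw [Polynomial.map_mul, hp, hr, ← sq]
    have : Fact (Nat.Prime 2) := ⟨Nat.prime_two⟩
    exact sum_pow_char 2 _ _
  have : (((pPoly N e * rPoly N e).coeff (2 * t) : ℤ) : ZMod 2)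
      = ((pPoly N e * rPoly N e).map (Int.castRingHom (ZMod 2))).coeff (2 * t) := by
    rw [Polynomial.coeff_map]
    simp
  rw [this, hsq, Polynomial.finsetSum_coeff]
  simp_rw [← pow_mul, Polynomial.coeff_X_pow]
  rw [Finset.sum_eq_single t]
  · simp [mul_comm]
  · intro b _ hb
    rw [if_neg]
    omega
  · intro h
    exact absurd (mem_range.mpr ht) h


noncomputable def Pval (N : ℕ) (e : ℕ → ℤ) (z : ℂ) : ℂ := ∑ k ∈ range N, (e k : ℂ) * z ^ k

lemma aeval_p (N : ℕ) (e : ℕ → ℤ) (z : ℂ) :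
    Polynomial.aeval z (pPoly N e) = Pval N e z := by
  unfold pPoly Pval
  simp [map_sum]

lemma aeval_r (N : ℕ) (e : ℕ → ℤ) (z : ℂ) :
    Polynomial.aeval z (rPoly N e) = ∑ k ∈ range N, (e k : ℂ) * z ^ (N - 1 - k) := by
  unfold rPoly
  rw [← Finset.sum_range_reflect, map_sum]
  refine Finset.sum_congr rfl (fun k hk => ?_)
  have := mem_range.mp hk
  have h : N - 1 - (N - 1 - k) = k := by omega
  rw [h]
  simp

lemma norm_aeval_r (N : ℕ) (e : ℕ → ℤ) (z : ℂ) (hz : ‖z‖ = 1) :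
    ‖Polynomial.aeval z (rPoly N e)‖ = ‖Pval N e z‖ := by
  have hz0 : z ≠ 0 := by
    intro h
    rw [h] at hz
    simp at hz
  have hconj : (starRingEnd ℂ) z = z⁻¹ := (Complex.inv_eq_conj hz).symm
  have : Polynomial.aeval z (rPoly N e) = z ^ (N - 1) * (starRingEnd ℂ) (Pval N e z) := by
    rw [aeval_r]
    unfold Pval
    rw [map_sum, Finset.mul_sum]
    refine Finset.sum_congr rfl (fun k hk => ?_)
    have hk' := mem_range.mp hk
    rw [map_mul, map_pow, hconj, map_intCast]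
    have : z ^ (N - 1) = z ^ (N - 1 - k) * z ^ k := by
      rw [← pow_add]
      congr 1
      omega
    rw [this, inv_pow]
    field_simp
  rw [this, norm_mul, norm_pow, hz, one_pow, one_mul, Complex.norm_conj]

lemma norm_aeval_q (N : ℕ) (e : ℕ → ℤ) (z : ℂ) (hz : ‖z‖ = 1) :
    ‖Polynomial.aeval z (pPoly N e * rPoly N e)‖ = ‖Pval N e z‖ ^ 2 := by
  rw [map_mul, norm_mul, norm_aeval_r N e z hz, aeval_p, sq]

lemma aeval_q_expand (N : ℕ) (hN : 1 ≤ N) (e : ℕ → ℤ) (z : ℂ) :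
    Polynomial.aeval z (pPoly N e * rPoly N e)
      = ∑ m ∈ range (2 * N - 1), (((pPoly N e * rPoly N e).coeff m : ℤ) : ℂ) * z ^ m := by
  have hdeg : (pPoly N e * rPoly N e).natDegree < 2 * N - 1 := by
    have h1 := pPoly_natDegree N e
    have h2 := rPoly_natDegree N e
    have h3 := Polynomial.natDegree_mul_le (p := pPoly N e) (q := rPoly N e)
    omega
  rw [Polynomial.aeval_eq_sum_range' hdeg]
  refine Finset.sum_congr rfl (fun m _ => ?_)
  rw [zsmul_eq_mul]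

lemma coeff_sum_lb (N : ℕ) (hN : 1 ≤ N) (e : ℕ → ℤ) (he : ∀ k, e k = 1 ∨ e k = -1) :
    (N : ℝ) ^ 2 + (N - 1) ≤ ∑ m ∈ range (2 * N - 1), (((pPoly N e * rPoly N e).coeff m : ℤ) : ℝ) ^ 2 := by
  set q : ℕ → ℤ := fun m => (pPoly N e * rPoly N e).coeff m with hq
  have hmid : q (N - 1) = N := mid_coeff N hN e he
  have hmem : N - 1 ∈ range (2 * N - 1) := by
    rw [mem_range]; omega
  rw [← Finset.add_sum_erase _ _ hmem]
  have h1 : ((q (N - 1) : ℤ) : ℝ) ^ 2 = (N : ℝ) ^ 2 := by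
    rw [hmid]; norm_cast
  change ((N : ℝ) ^ 2 + (N - 1) ≤ ((q (N - 1) : ℤ) : ℝ) ^ 2 + ∑ m ∈ (range (2 * N - 1)).erase (N - 1), ((q m : ℤ) : ℝ) ^ 2)
  rw [h1]
  have hT : (((range N).erase ((N - 1) / 2)).image (fun t => 2 * t)) ⊆ (range (2 * N - 1)).erase (N - 1) := by
    intro m hm
    rw [mem_image] at hm
    obtain ⟨t, ht, rfl⟩ := hm
    rw [mem_erase, mem_range] at ht
    rw [mem_erase, mem_range]
    constructor
    · intro h
      apply ht.1
      omega
    · omega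
  have h2 : ∑ m ∈ ((range N).erase ((N - 1) / 2)).image (fun t => 2 * t), ((q m : ℤ) : ℝ) ^ 2
      ≤ ∑ m ∈ (range (2 * N - 1)).erase (N - 1), ((q m : ℤ) : ℝ) ^ 2 :=
    Finset.sum_le_sum_of_subset_of_nonneg hT (fun _ _ _ => sq_nonneg _)
  have h3 : ∀ m ∈ ((range N).erase ((N - 1) / 2)).image (fun t => 2 * t), (1 : ℝ) ≤ ((q m : ℤ) : ℝ) ^ 2 := by
    intro m hm
    rw [mem_image] at hm
    obtain ⟨t, ht, rfl⟩ := hm
    rw [mem_erase, mem_range] at ht
    have hodd := even_coeff N e he t ht.2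
    have hne : q (2 * t) ≠ 0 := by
      intro h0
      rw [hq] at h0
      simp only at h0
      rw [h0] at hodd
      simp at hodd
    have : (1 : ℤ) ≤ (q (2 * t)) ^ 2 := by
      have := sq_nonneg (q (2 * t))
      have h' : (q (2 * t)) ^ 2 ≠ 0 := pow_ne_zero 2 hne
      omega
    exact_mod_cast this
  have h4 : ((((range N).erase ((N - 1) / 2)).image (fun t => 2 * t)).card : ℝ) = (N : ℝ) - 1 := by
    rw [Finset.card_image_of_injective _ (fun a b h => by simpa using h)]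
    rw [Finset.card_erase_of_mem (by rw [mem_range]; omega), card_range]
    rw [Nat.cast_sub hN]
    simp
  have h5 : (N : ℝ) - 1 ≤ ∑ m ∈ ((range N).erase ((N - 1) / 2)).image (fun t => 2 * t), ((q m : ℤ) : ℝ) ^ 2 := by
    rw [← h4]
    have := Finset.card_nsmul_le_sum _ (fun m => ((q m : ℤ) : ℝ) ^ 2) 1 h3
    simpa using this
  linarith


theorem core (N : ℕ) (hN : 1 ≤ N) (e : ℕ → ℤ) (he : ∀ k, e k = 1 ∨ e k = -1) :
    ∃ z w : ℂ, ‖z‖ = 1 ∧ ‖w‖ = 1 ∧ (N : ℝ) ≤ ‖Pval N e z‖ ^ 2 ∧ ‖Pval N e w‖ ^ 2 ≤ N ∧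
      (N : ℝ) - 1 ≤ (‖Pval N e z‖ ^ 2 - N) * (N - ‖Pval N e w‖ ^ 2) := by
  set L : ℕ := 2 * N with hL
  have hLpos : 0 < L := by omega
  have hLne : L ≠ 0 := by omega
  set ζ : ℂ := Complex.exp (2 * Real.pi * Complex.I / L) with hζdef
  have hζ : IsPrimitiveRoot ζ L := Complex.isPrimitiveRoot_exp L hLne
  have hnorm : ‖ζ‖ = 1 := hζ.norm'_eq_one hLne
  have hnormj : ∀ j : ℕ, ‖ζ ^ j‖ = 1 := by
    intro j
    rw [norm_pow, hnorm, one_pow]
  set a : ℕ → ℝ := fun j => ‖Pval N e (ζ ^ j)‖ ^ 2 with ha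
  -- first moment
  have S1 : ∑ j ∈ range L, a j = L * N := by
    have := parseval L N (by omega) ζ hζ hLpos (fun k => (e k : ℂ))
    have h2 : ∑ k ∈ range N, ‖((e k : ℤ) : ℂ)‖ ^ 2 = N := by
      have : ∀ k ∈ range N, ‖((e k : ℤ) : ℂ)‖ ^ 2 = 1 := by
        intro k _
        rcases he k with h | h <;> rw [h] <;> simp
      rw [Finset.sum_congr rfl this]
      simp
    rw [h2] at this
    exact this
  -- second moment
  set q : ℕ → ℤ := fun m => (pPoly N e * rPoly N e).coeff m with hq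
  have S2 : ∑ j ∈ range L, (a j) ^ 2 = L * ∑ m ∈ range (2 * N - 1), ((q m : ℤ) : ℝ) ^ 2 := by
    have := parseval L (2 * N - 1) (by omega) ζ hζ hLpos (fun m => ((q m : ℤ) : ℂ))
    have h2 : ∀ m, ‖((q m : ℤ) : ℂ)‖ ^ 2 = ((q m : ℤ) : ℝ) ^ 2 := by
      intro m
      rw [Complex.norm_intCast, sq_abs]
    simp_rw [h2] at this
    rw [← this]
    refine Finset.sum_congr rfl (fun j _ => ?_)
    rw [ha]
    simp only
    rw [← norm_aeval_q N e (ζ ^ j) (hnormj j), aeval_q_expand N hN e (ζ ^ j)]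
  have S3 := coeff_sum_lb N hN e he
  have hne : (range L).Nonempty := ⟨0, mem_range.mpr hLpos⟩
  obtain ⟨jmax, hjmax, hmax⟩ := Finset.exists_max_image (range L) a hne
  obtain ⟨jmin, hjmin, hmin⟩ := Finset.exists_min_image (range L) a hne
  have hsum : 0 ≤ ∑ j ∈ range L, (a jmax - a j) * (a j - a jmin) := by
    apply Finset.sum_nonneg
    intro j hj
    exact mul_nonneg (sub_nonneg.mpr (hmax j hj)) (sub_nonneg.mpr (hmin j hj))
  have hexp : ∑ j ∈ range L, (a jmax - a j) * (a j - a jmin)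
      = (a jmax + a jmin) * ∑ j ∈ range L, a j - L * (a jmax * a jmin) - ∑ j ∈ range L, (a j) ^ 2 := by
    have : ∀ j ∈ range L, (a jmax - a j) * (a j - a jmin)
        = (a jmax + a jmin) * a j - a jmax * a jmin - (a j) ^ 2 := by
      intro j _
      ring
    rw [Finset.sum_congr rfl this, Finset.sum_sub_distrib, Finset.sum_sub_distrib, ← Finset.mul_sum]
    simp
  rw [hexp, S1, S2] at hsum
  have hLr : (0 : ℝ) < (L : ℝ) := by exact_mod_cast hLpos
  have hM : (N : ℝ) ≤ a jmax := by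
    have : ∑ j ∈ range L, a j ≤ ∑ j ∈ range L, a jmax := Finset.sum_le_sum hmax
    rw [S1] at this
    simp at this
    nlinarith
  have hm : a jmin ≤ (N : ℝ) := by
    have : ∑ j ∈ range L, a jmin ≤ ∑ j ∈ range L, a j := Finset.sum_le_sum hmin
    rw [S1] at this
    simp at this
    nlinarith
  refine ⟨ζ ^ jmax, ζ ^ jmin, hnormj jmax, hnormj jmin, hM, hm, ?_⟩
  have key : 0 ≤ (a jmax + a jmin) * N - a jmax * a jmin - ∑ m ∈ range (2 * N - 1), ((q m : ℤ) : ℝ) ^ 2 := by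
    have : (a jmax + a jmin) * (L * N) - L * (a jmax * a jmin) - L * ∑ m ∈ range (2 * N - 1), ((q m : ℤ) : ℝ) ^ 2
        = L * ((a jmax + a jmin) * N - a jmax * a jmin - ∑ m ∈ range (2 * N - 1), ((q m : ℤ) : ℝ) ^ 2) := by ring
    rw [this] at hsum
    exact nonneg_of_mul_nonneg_right hsum hLr
  change (N : ℝ) - 1 ≤ (a jmax - N) * (N - a jmin)
  nlinarith

end Vale.Agent.Helper23.P110Core
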