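import Mathlib

/-
Helper file for P226 (Gaussian propeller conjecture).
Contents: calculus of the standard normal density phi and upper tail Q; the inequalities
phi t ^ 2 <= (81/200) * Q t (all t) and phi t ^ 2 <= 9/(8 pi) * Q t (t >= 213/200);
the bound |z(A)| <= phi t for a set A of Gaussian measure Q t; and the two resulting
bounds on the sum of squared first moments of a disjoint family.
-/

open MeasureTheory ProbabilityTheory Set Filter Topology

namespace Vale.Agent.Helper23.P226Core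

noncomputable def phi (t : ℝ) : ℝ := (Real.sqrt (2 * Real.pi))⁻¹ * Real.exp (-(t ^ 2) / 2)

noncomputable def Q (t : ℝ) : ℝ := (gaussianReal 0 1).real (Ioi t)

lemma pdf_eq (t : ℝ) : gaussianPDFReal 0 1 t = phi t := by
  unfold gaussianPDFReal phi
  simp

lemma phi_pos (t : ℝ) : 0 < phi t := by
  unfold phi
  positivity

lemma phi_continuous : Continuous phi := by
  unfold phi
  fun_prop

lemma phi_hasDerivAt (t : ℝ) : HasDerivAt phi (-t * phi t) t := by
  have h1 : HasDerivAt (fun x : ℝ => -(x ^ 2) / 2) (-t) t := by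
    have h := ((hasDerivAt_pow 2 t).neg).div_const 2
    have h' : HasDerivAt (fun x : ℝ => -(x ^ 2) / 2) (-(((2 : ℕ) : ℝ) * t ^ (2 - 1)) / 2) t := h
    exact h'.congr_deriv (by simp; ring)
  have h2 := (h1.exp).const_mul ((Real.sqrt (2 * Real.pi))⁻¹)
  have h3 : HasDerivAt phi ((Real.sqrt (2 * Real.pi))⁻¹ * (Real.exp (-(t ^ 2) / 2) * -t)) t := h2
  exact h3.congr_deriv (by unfold phi; ring)

lemma phi_integrable : Integrable phi := by
  have := integrable_gaussianPDFReal 0 1
  have h : gaussianPDFReal 0 1 = phi := funext pdf_eq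
  rwa [h] at this

lemma phi_tendsto : Tendsto phi atTop (𝓝 0) := by
  unfold phi
  have h1 : Tendsto (fun t : ℝ => -(t ^ 2) / 2) atTop atBot := by
    have : Tendsto (fun t : ℝ => t ^ 2 / 2) atTop atTop :=
      (tendsto_pow_atTop (by norm_num : (2 : ℕ) ≠ 0)).atTop_div_const (by norm_num)
    have h2 := tendsto_neg_atTop_atBot.comp this
    refine h2.congr (fun t => ?_)
    simp [neg_div]
  have h3 := Real.tendsto_exp_atBot.comp h1
  have h4 := h3.const_mul ((Real.sqrt (2 * Real.pi))⁻¹)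
  simpa using h4

lemma Q_eq_integral (t : ℝ) : Q t = ∫ s in Ioi t, phi s := by
  unfold Q
  rw [measureReal_def, gaussianReal_apply_eq_integral 0 (by norm_num) (Ioi t)]
  rw [ENNReal.toReal_ofReal]
  · exact setIntegral_congr_fun measurableSet_Ioi (fun s _ => pdf_eq s)
  · exact setIntegral_nonneg measurableSet_Ioi (fun s _ => gaussianPDFReal_nonneg 0 1 s)

lemma Q_eq_sub (t : ℝ) : Q t = Q 0 - ∫ s in (0 : ℝ)..t, phi s := by
  rw [Q_eq_integral, Q_eq_integral]
  have := intervalIntegral.integral_Ioi_sub_Ioi' (f := phi) (a := 0) (b := t)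
    phi_integrable.integrableOn phi_integrable.integrableOn
  linarith

lemma Q_hasDerivAt (t : ℝ) : HasDerivAt Q (-phi t) t := by
  have h1 : HasDerivAt (fun u => ∫ s in (0 : ℝ)..u, phi s) (phi t) t :=
    intervalIntegral.integral_hasDerivAt_right (phi_continuous.intervalIntegrable _ _)
      (phi_continuous.stronglyMeasurableAtFilter _ _) phi_continuous.continuousAt
  have h2 : HasDerivAt (fun u => Q 0 - ∫ s in (0 : ℝ)..u, phi s) (-phi t) t := by
    simpa using h1.const_sub (Q 0)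
  have : Q = fun u => Q 0 - ∫ s in (0 : ℝ)..u, phi s := funext Q_eq_sub
  rw [this]
  exact h2

lemma Q_continuous : Continuous Q :=
  continuous_iff_continuousAt.mpr (fun t => (Q_hasDerivAt t).continuousAt)

lemma Q_nonneg (t : ℝ) : 0 ≤ Q t := measureReal_nonneg

lemma Q_le_one (t : ℝ) : Q t ≤ 1 := by
  unfold Q
  exact measureReal_le_one

lemma Q_tendsto_atTop : Tendsto Q atTop (𝓝 0) := by
  have h1 : Tendsto (fun x => (gaussianReal 0 1) (Iic x)) atTop (𝓝 ((gaussianReal 0 1) univ)) :=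
    tendsto_measure_Iic_atTop (gaussianReal 0 1)
  rw [measure_univ] at h1
  have h2 : Tendsto (fun x => ((gaussianReal 0 1) (Iic x)).toReal) atTop (𝓝 (1 : ENNReal).toReal) :=
    (ENNReal.tendsto_toReal ENNReal.one_ne_top).comp h1
  have h3 : ∀ x : ℝ, Q x = 1 - ((gaussianReal 0 1) (Iic x)).toReal := by
    intro x
    unfold Q
    have : (Ioi x : Set ℝ) = (Iic x)ᶜ := by ext; simp
    rw [this, measureReal_compl measurableSet_Iic]
    simp [measureReal_def]
  have h4 : Tendsto (fun x => 1 - ((gaussianReal 0 1) (Iic x)).toReal) atTop (𝓝 (1 - (1 : ENNReal).toReal)) :=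
    h2.const_sub 1
  simp only [ENNReal.toReal_one, sub_self] at h4
  exact h4.congr (fun x => (h3 x).symm)

lemma Q_tendsto_atBot : Tendsto Q atBot (𝓝 1) := by
  have h1 : Tendsto (fun x => (gaussianReal 0 1) (Ici x)) atBot (𝓝 ((gaussianReal 0 1) univ)) :=
    tendsto_measure_Ici_atBot (gaussianReal 0 1)
  rw [measure_univ] at h1
  have h2 : Tendsto (fun x => ((gaussianReal 0 1) (Ici x)).toReal) atBot (𝓝 (1 : ENNReal).toReal) :=
    (ENNReal.tendsto_toReal ENNReal.one_ne_top).comp h1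
  simp only [ENNReal.toReal_one] at h2
  have h3 : ∀ x : ℝ, ((gaussianReal 0 1) (Ici x)).toReal = Q x := by
    intro x
    unfold Q
    rw [measureReal_def]
    congr 1
    have : NullSingletonClass (gaussianReal 0 1) := nullSingletonClass_gaussianReal (by norm_num)
    exact (measure_congr Ioi_ae_eq_Ici).symm
  exact h2.congr h3


lemma mul_phi_integrable : Integrable (fun s => s * phi s) := by
  have h := (integrable_mul_exp_neg_mul_sq (b := 1 / 2) (by norm_num)).const_mul
    ((Real.sqrt (2 * Real.pi))⁻¹)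
  refine h.congr (Eventually.of_forall (fun s => ?_))
  unfold phi
  have : -(1 / 2 : ℝ) * s ^ 2 = -(s ^ 2) / 2 := by ring
  simp only [this]
  ring

lemma integral_mul_phi_Ioi (t : ℝ) : ∫ s in Ioi t, s * phi s = phi t := by
  have hderiv : ∀ x ∈ Ici t, HasDerivAt (fun s => -phi s) (x * phi x) x := by
    intro x _
    have := (phi_hasDerivAt x).neg
    exact this.congr_deriv (by ring)
  have htend : Tendsto (fun s => -phi s) atTop (𝓝 0) := by simpa using phi_tendsto.neg
  have := integral_Ioi_of_hasDerivAt_of_tendsto' hderiv mul_phi_integrable.integrableOn htend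
  simpa using this

lemma integral_max (t : ℝ) : ∫ s, max (s - t) 0 ∂(gaussianReal 0 1) = phi t - t * Q t := by
  rw [integral_gaussianReal_eq_integral_smul (by norm_num)]
  have h1 : ∀ s, gaussianPDFReal 0 1 s • max (s - t) 0
      = (Ioi t).indicator (fun s => s * phi s - t * phi s) s := by
    intro s
    rw [pdf_eq, smul_eq_mul]
    by_cases h : t < s
    · rw [indicator_of_mem (mem_Ioi.mpr h), max_eq_left (by linarith)]; ring
    · rw [indicator_of_notMem (by simpa using h), max_eq_right (by linarith)]; ring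
  simp_rw [h1]
  rw [integral_indicator measurableSet_Ioi, integral_sub mul_phi_integrable.integrableOn
    (phi_integrable.const_mul t).integrableOn, integral_const_mul, integral_mul_phi_Ioi,
    ← Q_eq_integral]

lemma Q_zero : Q 0 = 1 / 2 := by
  have hmap : (gaussianReal 0 1).map (fun x => -x) = gaussianReal 0 1 := by
    have := gaussianReal_map_neg (μ := 0) (v := 1)
    simpa using this
  have h1 : (gaussianReal 0 1) (Iio 0) = (gaussianReal 0 1) (Ioi 0) := by
    conv_lhs => rw [← hmap]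
    rw [Measure.map_apply measurable_neg measurableSet_Iio]
    congr 1
    ext x; simp
  have h2 : (gaussianReal 0 1) (Iic 0) = (gaussianReal 0 1) (Iio 0) := by
    have : NullSingletonClass (gaussianReal 0 1) := nullSingletonClass_gaussianReal (by norm_num)
    exact measure_congr Iio_ae_eq_Iic.symm
  have h3 : (gaussianReal 0 1) (Iic 0) + (gaussianReal 0 1) (Ioi 0) = 1 := by
    rw [← measure_union (by simp [disjoint_left]) measurableSet_Ioi, Iic_union_Ioi, measure_univ]
  rw [h2, h1] at h3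
  unfold Q
  rw [measureReal_def]
  have h4 : (gaussianReal 0 1) (Ioi 0) ≠ ⊤ := measure_ne_top _ _
  have h5 : ((gaussianReal 0 1) (Ioi 0)).toReal + ((gaussianReal 0 1) (Ioi 0)).toReal = 1 := by
    rw [← ENNReal.toReal_add h4 h4, h3]; simp
  linarith


/-- psi c t = c * Q t - phi t ^ 2 -/
noncomputable def psi (c : ℝ) (t : ℝ) : ℝ := c * Q t - phi t ^ 2

lemma psi_hasDerivAt (c t : ℝ) : HasDerivAt (psi c) (phi t * (2 * t * phi t - c)) t := by
  have h1 := (Q_hasDerivAt t).const_mul c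
  have h2 := (phi_hasDerivAt t).pow 2
  have h3 := h1.sub h2
  have h4 : HasDerivAt (psi c) (c * -phi t - ((2 : ℕ) : ℝ) * phi t ^ (2 - 1) * (-t * phi t)) t := h3
  exact h4.congr_deriv (by simp; ring)

lemma psi_continuous (c : ℝ) : Continuous (psi c) :=
  continuous_iff_continuousAt.mpr (fun t => (psi_hasDerivAt c t).continuousAt)

lemma psi_tendsto (c : ℝ) : Tendsto (psi c) atTop (𝓝 0) := by
  have h1 := Q_tendsto_atTop.const_mul c
  have h2 := phi_tendsto.pow 2
  have h3 := h1.sub h2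
  have h4 : Tendsto (psi c) atTop (𝓝 (c * 0 - 0 ^ 2)) := h3
  simpa using h4

/-- s * phi s -/
noncomputable def sphi (s : ℝ) : ℝ := s * phi s

lemma sphi_hasDerivAt (s : ℝ) : HasDerivAt sphi (phi s * (1 - s ^ 2)) s := by
  have h1 := (hasDerivAt_id s).mul (phi_hasDerivAt s)
  have h2 : HasDerivAt sphi (1 * phi s + id s * (-s * phi s)) s := h1
  exact h2.congr_deriv (by simp; ring)

lemma sphi_antitoneOn : AntitoneOn sphi (Ici 1) := by
  apply antitoneOn_of_deriv_nonpos (convex_Ici 1)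
  · exact (continuous_iff_continuousAt.mpr (fun t => (sphi_hasDerivAt t).continuousAt)).continuousOn
  · exact fun x _ => (sphi_hasDerivAt x).differentiableAt.differentiableWithinAt
  · intro x hx
    rw [interior_Ici] at hx
    rw [(sphi_hasDerivAt x).deriv]
    have hx1 : (1 : ℝ) < x := hx
    have : 1 - x ^ 2 ≤ 0 := by nlinarith
    exact mul_nonpos_of_nonneg_of_nonpos (phi_pos x).le this

lemma sphi_monotoneOn : MonotoneOn sphi (Icc 0 1) := by
  apply monotoneOn_of_deriv_nonneg (convex_Icc 0 1)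
  · exact (continuous_iff_continuousAt.mpr (fun t => (sphi_hasDerivAt t).continuousAt)).continuousOn
  · exact fun x _ => (sphi_hasDerivAt x).differentiableAt.differentiableWithinAt
  · intro x hx
    rw [interior_Icc] at hx
    rw [(sphi_hasDerivAt x).deriv]
    have : 0 ≤ 1 - x ^ 2 := by nlinarith [hx.1, hx.2]
    exact mul_nonneg (phi_pos x).le this

/-- tail inequality: if it holds at t0 >= 1 then it holds for all t >= t0 -/
lemma tail_ineq (c t0 : ℝ) (ht0 : 1 ≤ t0) (h0 : 0 ≤ psi c t0) (t : ℝ) (ht : t0 ≤ t) :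
    0 ≤ psi c t := by
  by_cases hg : 2 * t * phi t - c ≤ 0
  · -- psi is antitone on [t, ∞)
    have hanti : AntitoneOn (psi c) (Ici t) := by
      apply antitoneOn_of_deriv_nonpos (convex_Ici t)
      · exact (psi_continuous c).continuousOn
      · exact fun x _ => (psi_hasDerivAt c x).differentiableAt.differentiableWithinAt
      · intro x hx
        rw [interior_Ici] at hx
        rw [(psi_hasDerivAt c x).deriv]
        have hx1 : t < x := hx
        have h1 : sphi x ≤ sphi t := sphi_antitoneOn (by simp; linarith) (by simp; linarith) hx1.le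
        unfold sphi at h1
        have : 2 * x * phi x - c ≤ 0 := by linarith
        exact mul_nonpos_of_nonneg_of_nonpos (phi_pos x).le this
    have hev : ∀ᶠ s in atTop, psi c s ≤ psi c t := by
      filter_upwards [eventually_ge_atTop t] with s hs
      exact hanti (by simp) (by simpa using hs) hs
    exact le_of_tendsto (psi_tendsto c) hev
  · -- psi is monotone on [t0, t]
    push Not at hg
    have hmono : MonotoneOn (psi c) (Icc t0 t) := by
      apply monotoneOn_of_deriv_nonneg (convex_Icc t0 t)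
      · exact (psi_continuous c).continuousOn
      · exact fun x _ => (psi_hasDerivAt c x).differentiableAt.differentiableWithinAt
      · intro x hx
        rw [interior_Icc] at hx
        rw [(psi_hasDerivAt c x).deriv]
        have h1 : sphi t ≤ sphi x := sphi_antitoneOn (by simp; linarith [hx.1]) (by simp; linarith) hx.2.le
        unfold sphi at h1
        have : 0 ≤ 2 * x * phi x - c := by linarith
        exact mul_nonneg (phi_pos x).le this
    have := hmono (by simp; exact ht) (by simp; exact ht) ht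
    linarith

/-- global inequality from a single critical point tau in (0,1] -/
lemma full_ineq (τ : ℝ) (hτ0 : 0 < τ) (hτ1 : τ ≤ 1) (h0 : phi τ ≤ 2 * τ * Q τ) (t : ℝ) :
    phi t ^ 2 ≤ 2 * τ * phi τ * Q t := by
  set c : ℝ := 2 * τ * phi τ with hc
  have hcpos : 0 < c := by have := phi_pos τ; positivity
  have hτ : 0 ≤ psi c τ := by
    unfold psi
    have : c * Q τ - phi τ ^ 2 = phi τ * (2 * τ * Q τ - phi τ) := by rw [hc]; ring
    rw [this]
    exact mul_nonneg (phi_pos τ).le (by linarith)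
  suffices h : 0 ≤ psi c t by unfold psi at h; linarith
  rcases le_total t τ with htle | htge
  · -- antitone on (-∞, τ]
    have hanti : AntitoneOn (psi c) (Iic τ) := by
      apply antitoneOn_of_deriv_nonpos (convex_Iic τ)
      · exact (psi_continuous c).continuousOn
      · exact fun x _ => (psi_hasDerivAt c x).differentiableAt.differentiableWithinAt
      · intro x hx
        rw [interior_Iic] at hx
        rw [(psi_hasDerivAt c x).deriv]
        have hx1 : x < τ := hx
        have : 2 * x * phi x - c ≤ 0 := by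
          rcases le_total x 0 with hx0 | hx0
          · have : x * phi x ≤ 0 := mul_nonpos_of_nonpos_of_nonneg hx0 (phi_pos x).le
            linarith
          · have h1 : sphi x ≤ sphi τ :=
              sphi_monotoneOn ⟨hx0, by linarith⟩ ⟨hτ0.le, hτ1⟩ hx1.le
            unfold sphi at h1
            rw [hc]; linarith
        exact mul_nonpos_of_nonneg_of_nonpos (phi_pos x).le this
    have := hanti (by simpa using htle) (by simp) htle
    linarith
  · rcases le_total t 1 with ht1 | ht1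
    · have hmono : MonotoneOn (psi c) (Icc τ 1) := by
        apply monotoneOn_of_deriv_nonneg (convex_Icc τ 1)
        · exact (psi_continuous c).continuousOn
        · exact fun x _ => (psi_hasDerivAt c x).differentiableAt.differentiableWithinAt
        · intro x hx
          rw [interior_Icc] at hx
          rw [(psi_hasDerivAt c x).deriv]
          have h1 : sphi τ ≤ sphi x :=
            sphi_monotoneOn ⟨hτ0.le, hτ1⟩ ⟨by linarith [hx.1], hx.2.le⟩ hx.1.le
          unfold sphi at h1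
          have : 0 ≤ 2 * x * phi x - c := by rw [hc]; linarith
          exact mul_nonneg (phi_pos x).le this
      have := hmono ⟨le_refl τ, hτ1⟩ ⟨htge, ht1⟩ htge
      linarith
    · have hmono : MonotoneOn (psi c) (Icc τ 1) := by
        apply monotoneOn_of_deriv_nonneg (convex_Icc τ 1)
        · exact (psi_continuous c).continuousOn
        · exact fun x _ => (psi_hasDerivAt c x).differentiableAt.differentiableWithinAt
        · intro x hx
          rw [interior_Icc] at hx
          rw [(psi_hasDerivAt c x).deriv]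
          have h1 : sphi τ ≤ sphi x :=
            sphi_monotoneOn ⟨hτ0.le, hτ1⟩ ⟨by linarith [hx.1], hx.2.le⟩ hx.1.le
          unfold sphi at h1
          have : 0 ≤ 2 * x * phi x - c := by rw [hc]; linarith
          exact mul_nonneg (phi_pos x).le this
      have h1 : 0 ≤ psi c 1 := by
        have := hmono ⟨le_refl τ, hτ1⟩ ⟨hτ1, le_refl 1⟩ hτ1
        linarith
      exact tail_ineq c 1 (le_refl 1) h1 t ht1


/-! numerics -/

lemma exp_neg_le5 (u : ℝ) (h0 : 0 ≤ u) (h1 : u ≤ 1) :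
    Real.exp (-u) ≤ 1 - u + u ^ 2 / 2 - u ^ 3 / 6 + u ^ 4 / 24 + u ^ 5 / 100 := by
  have h := Real.exp_bound (x := -u) (by rw [abs_neg, abs_of_nonneg h0]; exact h1) (n := 5)
    (by norm_num)
  have h' := (abs_le.mp h).2
  rw [abs_neg, abs_of_nonneg h0] at h'
  norm_num [Finset.sum_range_succ, Nat.factorial] at h'
  linarith

lemma exp_neg_le8 (u : ℝ) (h0 : 0 ≤ u) (h1 : u ≤ 1) :
    Real.exp (-u) ≤ 1 - u + u ^ 2 / 2 - u ^ 3 / 6 + u ^ 4 / 24 - u ^ 5 / 120 + u ^ 6 / 720
      - u ^ 7 / 5040 + u ^ 8 / 35840 := by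
  have h := Real.exp_bound (x := -u) (by rw [abs_neg, abs_of_nonneg h0]; exact h1) (n := 8)
    (by norm_num)
  have h' := (abs_le.mp h).2
  rw [abs_neg, abs_of_nonneg h0] at h'
  norm_num [Finset.sum_range_succ, Nat.factorial] at h'
  linarith

noncomputable def Fpoly (t : ℝ) : ℝ :=
  t - t ^ 3 / 6 + t ^ 5 / 40 - t ^ 7 / 336 + t ^ 9 / 3456 + t ^ 11 / 35200

lemma Fpoly_hasDerivAt (s : ℝ) : HasDerivAt Fpoly
    (1 - s ^ 2 / 2 + s ^ 4 / 8 - s ^ 6 / 48 + s ^ 8 / 384 + s ^ 10 / 3200) s := by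
  have h1 := hasDerivAt_id s
  have h3 := (hasDerivAt_pow 3 s).div_const 6
  have h5 := (hasDerivAt_pow 5 s).div_const 40
  have h7 := (hasDerivAt_pow 7 s).div_const 336
  have h9 := (hasDerivAt_pow 9 s).div_const 3456
  have h11 := (hasDerivAt_pow 11 s).div_const 35200
  have h := ((((h1.sub h3).add h5).sub h7).add h9).add h11
  have h' : HasDerivAt Fpoly (1 - ((3 : ℕ) : ℝ) * s ^ (3 - 1) / 6 + ((5 : ℕ) : ℝ) * s ^ (5 - 1) / 40
      - ((7 : ℕ) : ℝ) * s ^ (7 - 1) / 336 + ((9 : ℕ) : ℝ) * s ^ (9 - 1) / 3456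
      + ((11 : ℕ) : ℝ) * s ^ (11 - 1) / 35200) s := h
  exact h'.congr_deriv (by norm_num; ring)

lemma E_le (t : ℝ) (h0 : 0 ≤ t) (h1 : t ^ 2 ≤ 2) :
    ∫ s in (0 : ℝ)..t, Real.exp (-(s ^ 2) / 2) ≤ Fpoly t := by
  have hP : ∀ s ∈ Icc 0 t, Real.exp (-(s ^ 2) / 2)
      ≤ 1 - s ^ 2 / 2 + s ^ 4 / 8 - s ^ 6 / 48 + s ^ 8 / 384 + s ^ 10 / 3200 := by
    intro s hs
    have hs2 : s ^ 2 ≤ 2 := by nlinarith [hs.1, hs.2]
    have := exp_neg_le5 (s ^ 2 / 2) (by positivity) (by linarith)
    have e : -(s ^ 2) / 2 = -(s ^ 2 / 2) := by ring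
    rw [e]
    refine this.trans (le_of_eq ?_)
    ring
  have hderiv : ∀ s ∈ uIcc 0 t, HasDerivAt Fpoly
      (1 - s ^ 2 / 2 + s ^ 4 / 8 - s ^ 6 / 48 + s ^ 8 / 384 + s ^ 10 / 3200) s :=
    fun s _ => Fpoly_hasDerivAt s
  have hcontP : Continuous (fun s : ℝ => 1 - s ^ 2 / 2 + s ^ 4 / 8 - s ^ 6 / 48 + s ^ 8 / 384
      + s ^ 10 / 3200) := by fun_prop
  have hcontE : Continuous (fun s : ℝ => Real.exp (-(s ^ 2) / 2)) := by fun_prop
  have hint := intervalIntegral.integral_eq_sub_of_hasDerivAt hderiv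
    (hcontP.intervalIntegrable (μ := volume) 0 t)
  have hmono := intervalIntegral.integral_mono_on (μ := volume) h0
    (hcontE.intervalIntegrable (μ := volume) 0 t)
    (hcontP.intervalIntegrable (μ := volume) 0 t) hP
  rw [hint] at hmono
  have hF0 : Fpoly 0 = 0 := by unfold Fpoly; norm_num
  rw [hF0, sub_zero] at hmono
  exact hmono

lemma sqrt_two_pi_lb : (250662 : ℝ) / 100000 ≤ Real.sqrt (2 * Real.pi) := by
  have h : ((250662 : ℝ) / 100000) ^ 2 ≤ 2 * Real.pi := by
    have := Real.pi_gt_d6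
    norm_num
    linarith
  have := Real.sqrt_le_sqrt h
  rwa [Real.sqrt_sq (by norm_num)] at this

lemma sqrt_two_pi_pos : 0 < Real.sqrt (2 * Real.pi) := by
  have := sqrt_two_pi_lb
  linarith

lemma sqrt_two_pi_inv_le : (Real.sqrt (2 * Real.pi))⁻¹ ≤ (100000 : ℝ) / 250662 := by
  have h := sqrt_two_pi_lb
  rw [inv_le_comm₀ sqrt_two_pi_pos (by norm_num)]
  have : ((100000 : ℝ) / 250662)⁻¹ = 250662 / 100000 := by norm_num
  rw [this]
  exact h

lemma Q_lower (t : ℝ) (h0 : 0 ≤ t) (h1 : t ^ 2 ≤ 2) :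
    1 / 2 - (Real.sqrt (2 * Real.pi))⁻¹ * Fpoly t ≤ Q t := by
  rw [Q_eq_sub, Q_zero]
  have hphi : ∫ s in (0 : ℝ)..t, phi s
      = (Real.sqrt (2 * Real.pi))⁻¹ * ∫ s in (0 : ℝ)..t, Real.exp (-(s ^ 2) / 2) := by
    unfold phi
    rw [intervalIntegral.integral_const_mul]
  rw [hphi]
  have hE := E_le t h0 h1
  have hs : 0 ≤ (Real.sqrt (2 * Real.pi))⁻¹ := inv_nonneg.mpr sqrt_two_pi_pos.le
  have := mul_le_mul_of_nonneg_left hE hs
  linarith

lemma Fpoly_nonneg (t : ℝ) (h0 : 0 ≤ t) (h1 : t ^ 2 ≤ 2) : 0 ≤ Fpoly t := by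
  have hE := E_le t h0 h1
  have : 0 ≤ ∫ s in (0 : ℝ)..t, Real.exp (-(s ^ 2) / 2) :=
    intervalIntegral.integral_nonneg h0 (fun s _ => (Real.exp_pos _).le)
  linarith

/-- rational lower bound for Q -/
lemma Q_lower_rat (t : ℝ) (h0 : 0 ≤ t) (h1 : t ^ 2 ≤ 2) :
    1 / 2 - (100000 : ℝ) / 250662 * Fpoly t ≤ Q t := by
  have h := Q_lower t h0 h1
  have hF := Fpoly_nonneg t h0 h1
  have := mul_le_mul_of_nonneg_right sqrt_two_pi_inv_le hF
  linarith

lemma num_a : (1 : ℝ) / 7 ≤ Q (213 / 200) := by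
  have h := Q_lower_rat (213 / 200) (by norm_num) (by norm_num)
  have : (1 : ℝ) / 7 ≤ 1 / 2 - (100000 : ℝ) / 250662 * Fpoly (213 / 200) := by
    unfold Fpoly
    norm_num
  linarith

lemma num_b : phi (213 / 200) ^ 2 ≤ 9 / (8 * Real.pi) * Q (213 / 200) := by
  have hQ := Q_lower_rat (213 / 200) (by norm_num) (by norm_num)
  have hX := exp_neg_le8 ((213 / 200 : ℝ) ^ 2 / 2) (by norm_num) (by norm_num)
  have hs2 : (Real.sqrt (2 * Real.pi)) ^ 2 = 2 * Real.pi := Real.sq_sqrt (by positivity)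
  have hpi : 0 < Real.pi := Real.pi_pos
  set X : ℝ := Real.exp (-((213 / 200 : ℝ) ^ 2 / 2)) with hXdef
  have hX0 : 0 < X := Real.exp_pos _
  have hphi : phi (213 / 200) ^ 2 = X ^ 2 / (2 * Real.pi) := by
    unfold phi
    have e : -((213 / 200 : ℝ) ^ 2) / 2 = -((213 / 200 : ℝ) ^ 2 / 2) := by ring
    rw [e, mul_pow, inv_pow, hs2, ← hXdef]
    ring
  rw [hphi]
  set Qlo : ℝ := 1 / 2 - (100000 : ℝ) / 250662 * Fpoly (213 / 200) with hQlo
  have hnum : (1 - (213 / 200 : ℝ) ^ 2 / 2 + ((213 / 200 : ℝ) ^ 2 / 2) ^ 2 / 2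
      - ((213 / 200 : ℝ) ^ 2 / 2) ^ 3 / 6 + ((213 / 200 : ℝ) ^ 2 / 2) ^ 4 / 24
      - ((213 / 200 : ℝ) ^ 2 / 2) ^ 5 / 120 + ((213 / 200 : ℝ) ^ 2 / 2) ^ 6 / 720
      - ((213 / 200 : ℝ) ^ 2 / 2) ^ 7 / 5040 + ((213 / 200 : ℝ) ^ 2 / 2) ^ 8 / 35840) ^ 2
      ≤ 9 / 4 * Qlo := by
    rw [hQlo]
    unfold Fpoly
    norm_num
  have hX2 : X ^ 2 ≤ 9 / 4 * Qlo := by
    refine le_trans ?_ hnum
    exact pow_le_pow_left₀ hX0.le hX 2
  have h1 : X ^ 2 / (2 * Real.pi) ≤ (9 / 4 * Qlo) / (2 * Real.pi) :=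
    div_le_div_of_nonneg_right hX2 (by positivity)
  have h2 : (9 / 4 * Qlo) / (2 * Real.pi) = 9 / (8 * Real.pi) * Qlo := by
    field_simp
    ring
  have h3 : 9 / (8 * Real.pi) * Qlo ≤ 9 / (8 * Real.pi) * Q (213 / 200) :=
    mul_le_mul_of_nonneg_left hQ (by positivity)
  linarith


lemma phi_le_rat (t : ℝ) (B : ℝ) (hB : Real.exp (-(t ^ 2 / 2)) ≤ B) :
    phi t ≤ (100000 : ℝ) / 250662 * B := by
  unfold phi
  have e : -(t ^ 2) / 2 = -(t ^ 2 / 2) := by ring
  rw [e]
  have hX0 : 0 < Real.exp (-(t ^ 2 / 2)) := Real.exp_pos _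
  calc (Real.sqrt (2 * Real.pi))⁻¹ * Real.exp (-(t ^ 2 / 2))
      ≤ (100000 : ℝ) / 250662 * Real.exp (-(t ^ 2 / 2)) :=
        mul_le_mul_of_nonneg_right sqrt_two_pi_inv_le hX0.le
    _ ≤ (100000 : ℝ) / 250662 * B := mul_le_mul_of_nonneg_left hB (by norm_num)

lemma num_c : phi (6121 / 10000) ≤ 2 * (6121 / 10000) * Q (6121 / 10000) := by
  have hQ := Q_lower_rat (6121 / 10000) (by norm_num) (by norm_num)
  have hX := exp_neg_le5 ((6121 / 10000 : ℝ) ^ 2 / 2) (by norm_num) (by norm_num)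
  have hphi := phi_le_rat (6121 / 10000) _ hX
  have hnum : (100000 : ℝ) / 250662 * (1 - (6121 / 10000 : ℝ) ^ 2 / 2
      + ((6121 / 10000 : ℝ) ^ 2 / 2) ^ 2 / 2
      - ((6121 / 10000 : ℝ) ^ 2 / 2) ^ 3 / 6 + ((6121 / 10000 : ℝ) ^ 2 / 2) ^ 4 / 24
      + ((6121 / 10000 : ℝ) ^ 2 / 2) ^ 5 / 100)
      ≤ 2 * (6121 / 10000) * (1 / 2 - (100000 : ℝ) / 250662 * Fpoly (6121 / 10000)) := by
    unfold Fpoly
    norm_num
  have h3 : 2 * (6121 / 10000 : ℝ) * (1 / 2 - (100000 : ℝ) / 250662 * Fpoly (6121 / 10000))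
      ≤ 2 * (6121 / 10000) * Q (6121 / 10000) :=
    mul_le_mul_of_nonneg_left hQ (by norm_num)
  linarith

lemma num_d : 2 * (6121 / 10000) * phi (6121 / 10000) ≤ 81 / 200 := by
  have hX := exp_neg_le5 ((6121 / 10000 : ℝ) ^ 2 / 2) (by norm_num) (by norm_num)
  have hphi := phi_le_rat (6121 / 10000) _ hX
  have hnum : 2 * (6121 / 10000 : ℝ) * ((100000 : ℝ) / 250662 * (1 - (6121 / 10000 : ℝ) ^ 2 / 2
      + ((6121 / 10000 : ℝ) ^ 2 / 2) ^ 2 / 2
      - ((6121 / 10000 : ℝ) ^ 2 / 2) ^ 3 / 6 + ((6121 / 10000 : ℝ) ^ 2 / 2) ^ 4 / 24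
      + ((6121 / 10000 : ℝ) ^ 2 / 2) ^ 5 / 100)) ≤ 81 / 200 := by
    norm_num
  have h3 : 2 * (6121 / 10000 : ℝ) * phi (6121 / 10000) ≤ 2 * (6121 / 10000 : ℝ) *
      ((100000 : ℝ) / 250662 *
      (1 - (6121 / 10000 : ℝ) ^ 2 / 2 + ((6121 / 10000 : ℝ) ^ 2 / 2) ^ 2 / 2
      - ((6121 / 10000 : ℝ) ^ 2 / 2) ^ 3 / 6 + ((6121 / 10000 : ℝ) ^ 2 / 2) ^ 4 / 24
      + ((6121 / 10000 : ℝ) ^ 2 / 2) ^ 5 / 100)) :=
    mul_le_mul_of_nonneg_left hphi (by norm_num)
  linarith

/-- For every real t: phi t ^ 2 <= (81/200) * Q t. -/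
lemma universal_ineq (t : ℝ) : phi t ^ 2 ≤ 81 / 200 * Q t := by
  have h := full_ineq (6121 / 10000) (by norm_num) (by norm_num) num_c t
  have h2 := mul_le_mul_of_nonneg_right num_d (Q_nonneg t)
  linarith

/-- For every real t >= 213/200: phi t ^ 2 <= 9/(8 pi) * Q t. -/
lemma small_ineq (t : ℝ) (ht : 213 / 200 ≤ t) : phi t ^ 2 ≤ 9 / (8 * Real.pi) * Q t := by
  have h0 : 0 ≤ psi (9 / (8 * Real.pi)) (213 / 200) := by
    unfold psi
    linarith [num_b]
  have := tail_ineq (9 / (8 * Real.pi)) (213 / 200) (by norm_num) h0 t ht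
  unfold psi at this
  linarith


/-- the measure-theoretic step: a set of Gaussian measure Q t has first moment of norm <= phi t -/
lemma moment_le (d : ℕ) (A : Set (EuclideanSpace ℝ (Fin d))) (t : ℝ)
    (hQ : (stdGaussian (EuclideanSpace ℝ (Fin d))).real A = Q t) :
    ‖∫ x in A, x ∂(stdGaussian (EuclideanSpace ℝ (Fin d)))‖ ≤ phi t := by
  set γ := stdGaussian (EuclideanSpace ℝ (Fin d)) with hγ
  set z := ∫ x in A, x ∂γ with hzdef
  by_cases hz : z = 0
  · rw [hz, norm_zero]; exact (phi_pos t).le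
  · have hznorm : ‖z‖ ≠ 0 := norm_ne_zero_iff.mpr hz
    set u : EuclideanSpace ℝ (Fin d) := (‖z‖⁻¹) • z with hu
    have hunorm : ‖u‖ = 1 := by
      rw [hu, norm_smul, norm_inv, norm_norm, inv_mul_cancel₀ hznorm]
    set L : StrongDual ℝ (EuclideanSpace ℝ (Fin d)) := innerSL ℝ u with hL
    have hLz : L z = ‖z‖ := by
      rw [hL, innerSL_apply_apply, hu, real_inner_smul_left, real_inner_self_eq_norm_sq]
      field_simp
    have hint : Integrable (fun x : EuclideanSpace ℝ (Fin d) => x) γ := IsGaussian.integrable_fun_id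
    have hLi : Integrable (fun x => L x) γ := L.integrable_comp hint
    have hLint : ∫ x in A, L x ∂γ = L z := L.integral_comp_comm hint.integrableOn
    have hLnorm : ‖L‖ = 1 := by rw [hL, innerSL_apply_norm, hunorm]
    have hmap : γ.map L = gaussianReal 0 1 := by
      rw [IsGaussian.map_eq_gaussianReal L, integral_strongDual_stdGaussian,
        variance_dual_stdGaussian, hLnorm]
      simp
    have h1 : ∫ x in A, L x ∂γ = ∫ x in A, (L x - t) ∂γ + t * γ.real A := by
      rw [integral_sub hLi.integrableOn (integrableOn_const (by simp)), setIntegral_const,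
        smul_eq_mul]
      ring
    have hsubi : Integrable (fun x => L x - t) γ := hLi.sub (integrable_const t)
    have hmaxi : Integrable (fun x => max (L x - t) 0) γ := hsubi.pos_part
    have h2 : ∫ x in A, (L x - t) ∂γ ≤ ∫ x in A, max (L x - t) 0 ∂γ :=
      setIntegral_mono hsubi.integrableOn hmaxi.integrableOn (fun x => le_max_left _ _)
    have h3 : ∫ x in A, max (L x - t) 0 ∂γ ≤ ∫ x, max (L x - t) 0 ∂γ :=
      setIntegral_le_integral hmaxi (Eventually.of_forall (fun x => le_max_right _ _))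
    have h4 : ∫ x, max (L x - t) 0 ∂γ = ∫ s, max (s - t) 0 ∂(gaussianReal 0 1) := by
      rw [← hmap, integral_map L.continuous.aemeasurable]
      exact (by fun_prop : Continuous (fun s : ℝ => max (s - t) 0)).aestronglyMeasurable
    rw [integral_max] at h4
    rw [← hLz, ← hLint, h1, hQ]
    linarith


/-- universal per-cell bound -/
lemma cell_universal (d : ℕ) (A : Set (EuclideanSpace ℝ (Fin d))) (hA : MeasurableSet A) :
    ‖∫ x in A, x ∂(stdGaussian (EuclideanSpace ℝ (Fin d)))‖ ^ 2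
      ≤ 81 / 200 * (stdGaussian (EuclideanSpace ℝ (Fin d))).real A := by
  set γ := stdGaussian (EuclideanSpace ℝ (Fin d)) with hγ
  set p := γ.real A with hp
  have hp0 : 0 ≤ p := measureReal_nonneg
  have hp1 : p ≤ 1 := measureReal_le_one
  rcases hp0.eq_or_lt with h0 | h0
  · -- null cell
    have hnull : γ A = 0 := by
      have : γ.real A = 0 := h0.symm
      rw [measureReal_def, ENNReal.toReal_eq_zero_iff] at this
      rcases this with h | h
      · exact h
      · exact absurd h (measure_ne_top _ _)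
    rw [setIntegral_measure_zero _ hnull, norm_zero, ← h0]
    norm_num
  rcases hp1.eq_or_lt with h1 | h1
  · -- full cell
    have hfull : γ A = 1 := by
      have : γ.real A = 1 := h1
      rw [measureReal_def] at this
      have h2 : γ A ≠ ⊤ := measure_ne_top _ _
      rw [← ENNReal.ofReal_toReal h2, this]
      simp
    have hae : A =ᵐ[γ] univ := by
      rw [ae_eq_univ]
      exact (prob_compl_eq_zero_iff hA).mpr hfull
    rw [setIntegral_congr_set hae, setIntegral_univ, integral_id_stdGaussian, norm_zero]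
    nlinarith
  · obtain ⟨t, ht⟩ : p ∈ range Q := by
      apply mem_range_of_exists_le_of_exists_ge Q_continuous
      · exact (((tendsto_order.1 Q_tendsto_atTop).2 p h0).exists).imp (fun x hx => hx.le)
      · exact (((tendsto_order.1 Q_tendsto_atBot).1 p h1).exists).imp (fun x hx => hx.le)
    have hm := moment_le d A t ht.symm
    have h2 : ‖∫ x in A, x ∂γ‖ ^ 2 ≤ phi t ^ 2 :=
      pow_le_pow_left₀ (norm_nonneg _) hm 2
    have h3 := universal_ineq t
    rw [ht] at h3
    linarith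

/-- per-cell bound for cells of measure at most 1/7 -/
lemma cell_small (d : ℕ) (A : Set (EuclideanSpace ℝ (Fin d)))
    (hsmall : (stdGaussian (EuclideanSpace ℝ (Fin d))).real A ≤ 1 / 7) :
    ‖∫ x in A, x ∂(stdGaussian (EuclideanSpace ℝ (Fin d)))‖ ^ 2
      ≤ 9 / (8 * Real.pi) * (stdGaussian (EuclideanSpace ℝ (Fin d))).real A := by
  set γ := stdGaussian (EuclideanSpace ℝ (Fin d)) with hγ
  set p := γ.real A with hp
  have hp0 : 0 ≤ p := measureReal_nonneg
  rcases hp0.eq_or_lt with h0 | h0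
  · have hnull : γ A = 0 := by
      have : γ.real A = 0 := h0.symm
      rw [measureReal_def, ENNReal.toReal_eq_zero_iff] at this
      rcases this with h | h
      · exact h
      · exact absurd h (measure_ne_top _ _)
    rw [setIntegral_measure_zero _ hnull, norm_zero, ← h0]
    norm_num
  · obtain ⟨b, hb1, hb2⟩ := (((tendsto_order.1 Q_tendsto_atTop).2 p h0).and
      (eventually_ge_atTop (213 / 200 : ℝ))).exists
    have hmem : p ∈ Icc (Q b) (Q (213 / 200)) := ⟨hb1.le, hsmall.trans num_a⟩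
    obtain ⟨t, ht, hQt⟩ := intermediate_value_Icc' hb2 Q_continuous.continuousOn hmem
    have hm := moment_le d A t hQt.symm
    have h2 : ‖∫ x in A, x ∂γ‖ ^ 2 ≤ phi t ^ 2 :=
      pow_le_pow_left₀ (norm_nonneg _) hm 2
    have h3 := small_ineq t ht.1
    rw [hQt] at h3
    linarith

lemma sum_measure_le_one (d k : ℕ) (A : Fin k → Set (EuclideanSpace ℝ (Fin d)))
    (hA : ∀ i, MeasurableSet (A i)) (hdisj : ∀ i j, i ≠ j → Disjoint (A i) (A j)) :
    ∑ i, (stdGaussian (EuclideanSpace ℝ (Fin d))).real (A i) ≤ 1 := by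
  have hpw : Pairwise (Function.onFun Disjoint A) := fun i j hij => hdisj i j hij
  rw [← measureReal_iUnion_fintype hpw hA]
  exact measureReal_le_one

theorem universal_bound (d k : ℕ) (A : Fin k → Set (EuclideanSpace ℝ (Fin d)))
    (hA : ∀ i, MeasurableSet (A i)) (hdisj : ∀ i j, i ≠ j → Disjoint (A i) (A j)) :
    ∑ i, ‖∫ x in A i, x ∂(stdGaussian (EuclideanSpace ℝ (Fin d)))‖ ^ 2 ≤ 81 / 200 := by
  calc ∑ i, ‖∫ x in A i, x ∂(stdGaussian (EuclideanSpace ℝ (Fin d)))‖ ^ 2
      ≤ ∑ i, 81 / 200 * (stdGaussian (EuclideanSpace ℝ (Fin d))).real (A i) :=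
        Finset.sum_le_sum (fun i _ => cell_universal d (A i) (hA i))
    _ = 81 / 200 * ∑ i, (stdGaussian (EuclideanSpace ℝ (Fin d))).real (A i) := by
        rw [Finset.mul_sum]
    _ ≤ 81 / 200 * 1 := mul_le_mul_of_nonneg_left (sum_measure_le_one d k A hA hdisj) (by norm_num)
    _ = 81 / 200 := by norm_num

theorem small_cells_bound (d k : ℕ) (A : Fin k → Set (EuclideanSpace ℝ (Fin d)))
    (hA : ∀ i, MeasurableSet (A i)) (hdisj : ∀ i j, i ≠ j → Disjoint (A i) (A j))
    (hsmall : ∀ i, (stdGaussian (EuclideanSpace ℝ (Fin d))) (A i) ≤ 1 / 7) :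
    ∑ i, ‖∫ x in A i, x ∂(stdGaussian (EuclideanSpace ℝ (Fin d)))‖ ^ 2 ≤ 9 / (8 * Real.pi) := by
  have hsmall' : ∀ i, (stdGaussian (EuclideanSpace ℝ (Fin d))).real (A i) ≤ 1 / 7 := by
    intro i
    rw [measureReal_def]
    have h := hsmall i
    have h2 : ((1 : ENNReal) / 7).toReal = 1 / 7 := by
      rw [ENNReal.toReal_div]; simp
    rw [← h2]
    exact ENNReal.toReal_mono (by simp) h
  have hc : (0 : ℝ) ≤ 9 / (8 * Real.pi) := by positivity
  calc ∑ i, ‖∫ x in A i, x ∂(stdGaussian (EuclideanSpace ℝ (Fin d)))‖ ^ 2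
      ≤ ∑ i, 9 / (8 * Real.pi) * (stdGaussian (EuclideanSpace ℝ (Fin d))).real (A i) :=
        Finset.sum_le_sum (fun i _ => cell_small d (A i) (hsmall' i))
    _ = 9 / (8 * Real.pi) * ∑ i, (stdGaussian (EuclideanSpace ℝ (Fin d))).real (A i) := by
        rw [Finset.mul_sum]
    _ ≤ 9 / (8 * Real.pi) * 1 := mul_le_mul_of_nonneg_left (sum_measure_le_one d k A hA hdisj) hc
    _ = 9 / (8 * Real.pi) := by ring

end Vale.Agent.Helper23.P226Core
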