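import Mathlib
import Vale.Agent.Helper23.P226Core

/-
Second helper file for P226 (Gaussian propeller conjecture).
Contents: every set has Gaussian first moment of norm at most phi 0 = 1 / sqrt (2 pi);
the inequality phi t ^ 2 <= 9/(8 pi) * Q t for t <= 4/25 (cells of measure at least 11/25);
and three resulting bounds on the sum of squared first moments of a disjoint family:
a dominant cell, two dominant cells, and cells that are all small or large.
-/

open MeasureTheory ProbabilityTheory Set Filter Topology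

namespace Vale.Agent.Helper23.P226More

open Vale.Agent.Helper23.P226Core

/-- every set has Gaussian first moment of norm at most phi 0 -/
lemma moment_le_zero (d : ℕ) (A : Set (EuclideanSpace ℝ (Fin d))) :
    ‖∫ x in A, x ∂(stdGaussian (EuclideanSpace ℝ (Fin d)))‖ ≤ phi 0 := by
  set γ := stdGaussian (EuclideanSpace ℝ (Fin d)) with hγ
  set z := ∫ x in A, x ∂γ with hzdef
  by_cases hz : z = 0
  · rw [hz, norm_zero]; exact (phi_pos 0).le
  · have hznorm : ‖z‖ ≠ 0 := norm_ne_zero_iff.mpr hz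
    set u : EuclideanSpace ℝ (Fin d) := (‖z‖⁻¹) • z with hu
    have hunorm : ‖u‖ = 1 := by
      rw [hu, norm_smul, norm_inv, norm_norm, inv_mul_cancel₀ hznorm]
    set L : StrongDual ℝ (EuclideanSpace ℝ (Fin d)) := innerSL ℝ u with hL
    have hLz : L z = ‖z‖ := by
      rw [hL, innerSL_apply_apply, hu, real_inner_smul_left, real_inner_self_eq_norm_sq]
      field_simp
    have hint : Integrable (fun x : EuclideanSpace ℝ (Fin d) => x) γ := IsGaussian.integrable_fun_id
    have hLi : Integrable (fun x => L x) γ := L.integrable_comp hint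
    have hLint : ∫ x in A, L x ∂γ = L z := L.integral_comp_comm hint.integrableOn
    have hLnorm : ‖L‖ = 1 := by rw [hL, innerSL_apply_norm, hunorm]
    have hmap : γ.map L = gaussianReal 0 1 := by
      rw [IsGaussian.map_eq_gaussianReal L, integral_strongDual_stdGaussian,
        variance_dual_stdGaussian, hLnorm]
      simp
    have hsubi : Integrable (fun x => L x - 0) γ := hLi.sub (integrable_const 0)
    have hmaxi : Integrable (fun x => max (L x - 0) 0) γ := hsubi.pos_part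
    have h2 : ∫ x in A, L x ∂γ ≤ ∫ x in A, max (L x - 0) 0 ∂γ :=
      setIntegral_mono hLi.integrableOn hmaxi.integrableOn
        (fun x => by rw [sub_zero]; exact le_max_left _ _)
    have h3 : ∫ x in A, max (L x - 0) 0 ∂γ ≤ ∫ x, max (L x - 0) 0 ∂γ :=
      setIntegral_le_integral hmaxi (Eventually.of_forall (fun x => le_max_right _ _))
    have h4 : ∫ x, max (L x - 0) 0 ∂γ = ∫ s, max (s - 0) 0 ∂(gaussianReal 0 1) := by
      rw [← hmap, integral_map L.continuous.aemeasurable]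
      exact (by fun_prop : Continuous (fun s : ℝ => max (s - 0) 0)).aestronglyMeasurable
    rw [integral_max] at h4
    rw [← hLz, ← hLint]
    linarith

lemma phi_zero_sq : phi 0 ^ 2 = 1 / (2 * Real.pi) := by
  unfold phi
  have hs2 : (Real.sqrt (2 * Real.pi)) ^ 2 = 2 * Real.pi := Real.sq_sqrt (by positivity)
  have e : -((0 : ℝ) ^ 2) / 2 = 0 := by norm_num
  rw [e, Real.exp_zero, mul_one, inv_pow, hs2, one_div]

/-- every cell: squared first moment at most 1 / (2 pi) -/
lemma cell_half (d : ℕ) (A : Set (EuclideanSpace ℝ (Fin d))) :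
    ‖∫ x in A, x ∂(stdGaussian (EuclideanSpace ℝ (Fin d)))‖ ^ 2 ≤ 1 / (2 * Real.pi) := by
  rw [← phi_zero_sq]
  exact pow_le_pow_left₀ (norm_nonneg _) (moment_le_zero d A) 2

lemma Q_antitone : Antitone Q := by
  apply antitone_of_deriv_nonpos
  · exact fun x => (Q_hasDerivAt x).differentiableAt
  · intro x
    rw [(Q_hasDerivAt x).deriv]
    have := phi_pos x
    linarith

lemma phi_antitoneOn : AntitoneOn phi (Ici 0) := by
  intro s hs t ht hst
  unfold phi
  have hs0 : (0 : ℝ) ≤ s := hs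
  have h1 : s ^ 2 ≤ t ^ 2 := by nlinarith
  have h2 : Real.exp (-(t ^ 2) / 2) ≤ Real.exp (-(s ^ 2) / 2) :=
    Real.exp_le_exp.mpr (by linarith)
  exact mul_le_mul_of_nonneg_left h2 (inv_nonneg.mpr sqrt_two_pi_pos.le)

lemma Q_upper (t : ℝ) (h0 : 0 ≤ t) : Q t ≤ 1 / 2 - t * phi t := by
  rw [Q_eq_sub, Q_zero]
  have hmono := intervalIntegral.integral_mono_on (μ := volume) h0
    (continuous_const.intervalIntegrable (μ := volume) 0 t : IntervalIntegrable (fun _ : ℝ => phi t) volume 0 t)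
    (phi_continuous.intervalIntegrable (μ := volume) 0 t)
    (fun s hs => phi_antitoneOn (by simpa using hs.1) (by simpa using h0) hs.2)
  rw [intervalIntegral.integral_const, smul_eq_mul, sub_zero] at hmono
  linarith

lemma sqrt_two_pi_ub : Real.sqrt (2 * Real.pi) ≤ (250670 : ℝ) / 100000 := by
  have h : 2 * Real.pi ≤ ((250670 : ℝ) / 100000) ^ 2 := by
    have := Real.pi_lt_d4
    norm_num
    linarith
  have := Real.sqrt_le_sqrt h
  rwa [Real.sqrt_sq (by norm_num)] at this

lemma phi_lower (t : ℝ) (ht : t ^ 2 ≤ 2) : (100000 : ℝ) / 250670 * (1 - t ^ 2 / 2) ≤ phi t := by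
  unfold phi
  have h1 : 1 - t ^ 2 / 2 ≤ Real.exp (-(t ^ 2) / 2) := by
    have := Real.add_one_le_exp (-(t ^ 2) / 2)
    linarith
  have h2 : (100000 : ℝ) / 250670 ≤ (Real.sqrt (2 * Real.pi))⁻¹ := by
    rw [le_inv_comm₀ (by norm_num) sqrt_two_pi_pos]
    have : ((100000 : ℝ) / 250670)⁻¹ = 250670 / 100000 := by norm_num
    rw [this]
    exact sqrt_two_pi_ub
  have h3 : (0 : ℝ) ≤ 1 - t ^ 2 / 2 := by linarith
  calc (100000 : ℝ) / 250670 * (1 - t ^ 2 / 2)
      ≤ (Real.sqrt (2 * Real.pi))⁻¹ * (1 - t ^ 2 / 2) := mul_le_mul_of_nonneg_right h2 h3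
    _ ≤ (Real.sqrt (2 * Real.pi))⁻¹ * Real.exp (-(t ^ 2) / 2) :=
        mul_le_mul_of_nonneg_left h1 (inv_nonneg.mpr sqrt_two_pi_pos.le)

lemma num_e : Q (4 / 25) < 11 / 25 := by
  have h1 := Q_upper (4 / 25) (by norm_num)
  have h2 := phi_lower (4 / 25) (by norm_num)
  have h3 : (4 / 25 : ℝ) * ((100000 : ℝ) / 250670 * (1 - (4 / 25 : ℝ) ^ 2 / 2)) ≤ 4 / 25 * phi (4 / 25) :=
    mul_le_mul_of_nonneg_left h2 (by norm_num)
  have h4 : (1 : ℝ) / 2 - 4 / 25 * ((100000 : ℝ) / 250670 * (1 - (4 / 25 : ℝ) ^ 2 / 2)) < 11 / 25 := by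
    norm_num
  linarith

lemma num_f : phi (4 / 25) ^ 2 ≤ 9 / (8 * Real.pi) * Q (4 / 25) := by
  have hQ := Q_lower_rat (4 / 25) (by norm_num) (by norm_num)
  have hX := exp_neg_le5 ((4 / 25 : ℝ) ^ 2 / 2) (by norm_num) (by norm_num)
  have hs2 : (Real.sqrt (2 * Real.pi)) ^ 2 = 2 * Real.pi := Real.sq_sqrt (by positivity)
  have hpi : 0 < Real.pi := Real.pi_pos
  set X : ℝ := Real.exp (-((4 / 25 : ℝ) ^ 2 / 2)) with hXdef
  have hX0 : 0 < X := Real.exp_pos _
  have hphi : phi (4 / 25) ^ 2 = X ^ 2 / (2 * Real.pi) := by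
    unfold phi
    have e : -((4 / 25 : ℝ) ^ 2) / 2 = -((4 / 25 : ℝ) ^ 2 / 2) := by ring
    rw [e, mul_pow, inv_pow, hs2, ← hXdef]
    ring
  rw [hphi]
  set Qlo : ℝ := 1 / 2 - (100000 : ℝ) / 250662 * Fpoly (4 / 25) with hQlo
  have hnum : (1 - (4 / 25 : ℝ) ^ 2 / 2 + ((4 / 25 : ℝ) ^ 2 / 2) ^ 2 / 2
      - ((4 / 25 : ℝ) ^ 2 / 2) ^ 3 / 6 + ((4 / 25 : ℝ) ^ 2 / 2) ^ 4 / 24
      + ((4 / 25 : ℝ) ^ 2 / 2) ^ 5 / 100) ^ 2
      ≤ 9 / 4 * Qlo := by
    rw [hQlo]
    unfold Fpoly
    norm_num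
  have hX2 : X ^ 2 ≤ 9 / 4 * Qlo := by
    refine le_trans ?_ hnum
    exact pow_le_pow_left₀ hX0.le hX 2
  have h1 : X ^ 2 / (2 * Real.pi) ≤ (9 / 4 * Qlo) / (2 * Real.pi) :=
    div_le_div_of_nonneg_right hX2 (by positivity)
  have h2 : (9 / 4 * Qlo) / (2 * Real.pi) = 9 / (8 * Real.pi) * Qlo := by
    field_simp
    ring
  have h3 : 9 / (8 * Real.pi) * Qlo ≤ 9 / (8 * Real.pi) * Q (4 / 25) :=
    mul_le_mul_of_nonneg_left hQ (by positivity)
  linarith

/-- For every real t <= 4/25: phi t ^ 2 <= 9/(8 pi) * Q t. -/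
lemma big_ineq (t : ℝ) (ht : t ≤ 4 / 25) : phi t ^ 2 ≤ 9 / (8 * Real.pi) * Q t := by
  have hc : (357 : ℝ) / 1000 ≤ 9 / (8 * Real.pi) := by
    rw [le_div_iff₀ (by positivity)]
    have := Real.pi_lt_d2
    nlinarith
  have hanti : AntitoneOn (psi (9 / (8 * Real.pi))) (Iic (4 / 25)) := by
    apply antitoneOn_of_deriv_nonpos (convex_Iic (4 / 25))
    · exact (psi_continuous _).continuousOn
    · exact fun x _ => (psi_hasDerivAt _ x).differentiableAt.differentiableWithinAt
    · intro x hx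
      rw [interior_Iic] at hx
      rw [(psi_hasDerivAt _ x).deriv]
      have hx1 : x < 4 / 25 := hx
      have : 2 * x * phi x - 9 / (8 * Real.pi) ≤ 0 := by
        rcases le_total x 0 with hx0 | hx0
        · have : x * phi x ≤ 0 := mul_nonpos_of_nonpos_of_nonneg hx0 (phi_pos x).le
          linarith
        · have h1 : phi x ≤ (100000 : ℝ) / 250662 * 1 :=
            phi_le_rat x 1 (by
              rw [Real.exp_le_one_iff]
              have : 0 ≤ x ^ 2 / 2 := by positivity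
              linarith)
          have h2 : x * phi x ≤ 4 / 25 * ((100000 : ℝ) / 250662 * 1) :=
            mul_le_mul hx1.le h1 (phi_pos x).le (by norm_num)
          have h3 : 2 * (4 / 25 * ((100000 : ℝ) / 250662 * 1)) ≤ (357 : ℝ) / 1000 := by norm_num
          linarith
      exact mul_nonpos_of_nonneg_of_nonpos (phi_pos x).le this
  have h := hanti (by simpa using ht) (by simp) ht
  have h0 : 0 ≤ psi (9 / (8 * Real.pi)) (4 / 25) := by
    unfold psi
    linarith [num_f]
  unfold psi at h h0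
  linarith

/-- per-cell bound for cells of measure at least 11/25 -/
lemma cell_large (d : ℕ) (A : Set (EuclideanSpace ℝ (Fin d))) (hA : MeasurableSet A)
    (hbig : 11 / 25 ≤ (stdGaussian (EuclideanSpace ℝ (Fin d))).real A) :
    ‖∫ x in A, x ∂(stdGaussian (EuclideanSpace ℝ (Fin d)))‖ ^ 2
      ≤ 9 / (8 * Real.pi) * (stdGaussian (EuclideanSpace ℝ (Fin d))).real A := by
  set γ := stdGaussian (EuclideanSpace ℝ (Fin d)) with hγ
  set p := γ.real A with hp
  have hp0 : 0 < p := by linarith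
  have hp1 : p ≤ 1 := measureReal_le_one
  have hc : (0 : ℝ) ≤ 9 / (8 * Real.pi) := by positivity
  rcases hp1.eq_or_lt with h1 | h1
  · -- full cell
    have hfull : γ A = 1 := by
      have : γ.real A = 1 := h1
      rw [measureReal_def] at this
      have h2 : γ A ≠ ⊤ := measure_ne_top _ _
      rw [← ENNReal.ofReal_toReal h2, this]
      simp
    have hae : A =ᵐ[γ] univ := by
      rw [ae_eq_univ]
      exact (prob_compl_eq_zero_iff hA).mpr hfull
    rw [setIntegral_congr_set hae, setIntegral_univ, integral_id_stdGaussian, norm_zero]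
    have : 0 ≤ 9 / (8 * Real.pi) * p := mul_nonneg hc hp0.le
    simpa using this
  · obtain ⟨t, ht⟩ : p ∈ range Q := by
      apply mem_range_of_exists_le_of_exists_ge Q_continuous
      · exact (((tendsto_order.1 Q_tendsto_atTop).2 p hp0).exists).imp (fun x hx => hx.le)
      · exact (((tendsto_order.1 Q_tendsto_atBot).1 p h1).exists).imp (fun x hx => hx.le)
    have htle : t ≤ 4 / 25 := by
      by_contra hcon
      push Not at hcon
      have := Q_antitone hcon.le
      have := num_e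
      linarith
    have hm := moment_le d A t ht.symm
    have h2 : ‖∫ x in A, x ∂γ‖ ^ 2 ≤ phi t ^ 2 :=
      pow_le_pow_left₀ (norm_nonneg _) hm 2
    have h3 := big_ineq t htle
    rw [ht] at h3
    linarith

/-- a cell of measure at least 51/100: propeller inequality -/
theorem dominant_bound (d k : ℕ) (A : Fin k → Set (EuclideanSpace ℝ (Fin d)))
    (hA : ∀ i, MeasurableSet (A i)) (hdisj : ∀ i j, i ≠ j → Disjoint (A i) (A j))
    (i0 : Fin k) (hbig : 51 / 100 ≤ stdGaussian (EuclideanSpace ℝ (Fin d)) (A i0)) :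
    ∑ i, ‖∫ x in A i, x ∂(stdGaussian (EuclideanSpace ℝ (Fin d)))‖ ^ 2 ≤ 9 / (8 * Real.pi) := by
  set γ := stdGaussian (EuclideanSpace ℝ (Fin d)) with hγ
  have hbig' : (51 : ℝ) / 100 ≤ γ.real (A i0) := by
    rw [measureReal_def]
    have h2 : ((51 : ENNReal) / 100).toReal = 51 / 100 := by
      rw [ENNReal.toReal_div]; simp
    rw [← h2]
    exact ENNReal.toReal_mono (measure_ne_top _ _) hbig
  have hsum := sum_measure_le_one d k A hA hdisj
  rw [← Finset.add_sum_erase Finset.univ _ (Finset.mem_univ i0)] at hsum ⊢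
  have h1 := cell_half d (A i0)
  have h2 : ∑ i ∈ Finset.univ.erase i0, ‖∫ x in A i, x ∂γ‖ ^ 2
      ≤ ∑ i ∈ Finset.univ.erase i0, 81 / 200 * γ.real (A i) :=
    Finset.sum_le_sum (fun i _ => cell_universal d (A i) (hA i))
  rw [← Finset.mul_sum] at h2
  have hpi : 0 < Real.pi := Real.pi_pos
  have hpi4 := Real.pi_lt_d4
  have h3 : 1 / (2 * Real.pi) + 81 / 200 * (49 / 100) ≤ 9 / (8 * Real.pi) := by
    rw [div_add' _ _ _ (by positivity), div_le_div_iff₀ (by positivity) (by positivity)]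
    nlinarith
  nlinarith

/-- two cells of total measure at least 91/100: propeller inequality -/
theorem two_dominant_bound (d k : ℕ) (A : Fin k → Set (EuclideanSpace ℝ (Fin d)))
    (hA : ∀ i, MeasurableSet (A i)) (hdisj : ∀ i j, i ≠ j → Disjoint (A i) (A j))
    (i0 i1 : Fin k) (hne : i0 ≠ i1)
    (hbig : 91 / 100 ≤ stdGaussian (EuclideanSpace ℝ (Fin d)) (A i0)
      + stdGaussian (EuclideanSpace ℝ (Fin d)) (A i1)) :
    ∑ i, ‖∫ x in A i, x ∂(stdGaussian (EuclideanSpace ℝ (Fin d)))‖ ^ 2 ≤ 9 / (8 * Real.pi) := by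
  set γ := stdGaussian (EuclideanSpace ℝ (Fin d)) with hγ
  have hbig' : (91 : ℝ) / 100 ≤ γ.real (A i0) + γ.real (A i1) := by
    rw [measureReal_def, measureReal_def, ← ENNReal.toReal_add (measure_ne_top _ _) (measure_ne_top _ _)]
    have h2 : ((91 : ENNReal) / 100).toReal = 91 / 100 := by
      rw [ENNReal.toReal_div]; simp
    rw [← h2]
    exact ENNReal.toReal_mono (ENNReal.add_ne_top.mpr ⟨measure_ne_top _ _, measure_ne_top _ _⟩) hbig
  have hsum := sum_measure_le_one d k A hA hdisj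
  have hmem1 : i1 ∈ Finset.univ.erase i0 := Finset.mem_erase.mpr ⟨hne.symm, Finset.mem_univ _⟩
  rw [← Finset.add_sum_erase Finset.univ _ (Finset.mem_univ i0),
    ← Finset.add_sum_erase (Finset.univ.erase i0) _ hmem1] at hsum ⊢
  have h0 := cell_half d (A i0)
  have h1 := cell_half d (A i1)
  have h2 : ∑ i ∈ (Finset.univ.erase i0).erase i1, ‖∫ x in A i, x ∂γ‖ ^ 2
      ≤ ∑ i ∈ (Finset.univ.erase i0).erase i1, 81 / 200 * γ.real (A i) :=
    Finset.sum_le_sum (fun i _ => cell_universal d (A i) (hA i))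
  rw [← Finset.mul_sum] at h2
  have hpi : 0 < Real.pi := Real.pi_pos
  have hpi4 := Real.pi_lt_d4
  have h3 : 1 / (2 * Real.pi) + 1 / (2 * Real.pi) + 81 / 200 * (9 / 100) ≤ 9 / (8 * Real.pi) := by
    rw [← add_div, div_add' _ _ _ (by positivity), div_le_div_iff₀ (by positivity) (by positivity)]
    nlinarith
  nlinarith

/-- all cells of measure at most 1/7 or at least 11/25: propeller inequality -/
theorem small_or_large_bound (d k : ℕ) (A : Fin k → Set (EuclideanSpace ℝ (Fin d)))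
    (hA : ∀ i, MeasurableSet (A i)) (hdisj : ∀ i j, i ≠ j → Disjoint (A i) (A j))
    (h : ∀ i, stdGaussian (EuclideanSpace ℝ (Fin d)) (A i) ≤ 1 / 7
      ∨ 11 / 25 ≤ stdGaussian (EuclideanSpace ℝ (Fin d)) (A i)) :
    ∑ i, ‖∫ x in A i, x ∂(stdGaussian (EuclideanSpace ℝ (Fin d)))‖ ^ 2 ≤ 9 / (8 * Real.pi) := by
  set γ := stdGaussian (EuclideanSpace ℝ (Fin d)) with hγ
  have hcell : ∀ i, ‖∫ x in A i, x ∂γ‖ ^ 2 ≤ 9 / (8 * Real.pi) * γ.real (A i) := by
    intro i
    rcases h i with hs | hl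
    · refine cell_small d (A i) ?_
      rw [measureReal_def]
      have h2 : ((1 : ENNReal) / 7).toReal = 1 / 7 := by
        rw [ENNReal.toReal_div]; simp
      rw [← h2]
      exact ENNReal.toReal_mono (by simp) hs
    · refine cell_large d (A i) (hA i) ?_
      rw [measureReal_def]
      have h2 : ((11 : ENNReal) / 25).toReal = 11 / 25 := by
        rw [ENNReal.toReal_div]; simp
      rw [← h2]
      exact ENNReal.toReal_mono (measure_ne_top _ _) hl
  have hc : (0 : ℝ) ≤ 9 / (8 * Real.pi) := by positivity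
  calc ∑ i, ‖∫ x in A i, x ∂γ‖ ^ 2
      ≤ ∑ i, 9 / (8 * Real.pi) * γ.real (A i) := Finset.sum_le_sum (fun i _ => hcell i)
    _ = 9 / (8 * Real.pi) * ∑ i, γ.real (A i) := by rw [Finset.mul_sum]
    _ ≤ 9 / (8 * Real.pi) * 1 := mul_le_mul_of_nonneg_left (sum_measure_le_one d k A hA hdisj) hc
    _ = 9 / (8 * Real.pi) := by ring

end Vale.Agent.Helper23.P226More
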